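import Vale.Agent.Lib.P368.DG.FinalP

/-! # Every entangling depth: the asymptotic form of the bound -/

namespace Vale.Agent.Lib.P368

/-- The purely real part of `depth_general_asymp`. -/
theorem asymp_real (m : ℕ) (ε : ℝ) (hε0 : 0 < ε) (hε1 : ε ≤ 1) :
    ∃ c : ℝ, 0 < c ∧ ∀ (n : ℕ) (N : ℝ), 1 ≤ N →
      N ≤ c * ((n : ℝ) / (Real.logb 2 n) ^ (m + 3))
        ^ ((2 : ℝ) ^ (m + 1) / ((2 : ℝ) ^ (m + 1) - 1)) →
      30 * Real.logb 2 (160 * ((m : ℝ) + 2) * (N + 1) / ε)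
      * (36 * ((m : ℝ) + 2) * Real.logb 2 (160 * ((m : ℝ) + 2) * (N + 1) / ε)) ^ (m + 2)
      * (2 * N ^ ((1 : ℝ) / 2 ^ (m + 1))) ^ (2 ^ (m + 1) - 1) ≤ n := by
  have hm0 : (0 : ℝ) ≤ (m : ℝ) := Nat.cast_nonneg _
  obtain ⟨K, hK⟩ : ∃ K : ℝ, K = (2 : ℝ) ^ (m + 1) := ⟨_, rfl⟩
  have hK2 : 2 ≤ K := by
    rw [hK, pow_succ]
    have : (1 : ℝ) ≤ 2 ^ m := one_le_pow₀ (by norm_num)
    linarith
  obtain ⟨γ, hγ⟩ : ∃ γ : ℝ, γ = K / (K - 1) := ⟨_, rfl⟩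
  have hK1 : 0 < K - 1 := by linarith
  have hγ1 : 1 ≤ γ := by
    rw [hγ, le_div_iff₀ hK1]; linarith
  have hγ2 : γ ≤ 2 := by
    rw [hγ, div_le_iff₀ hK1]; linarith
  have hγ0 : 0 < γ := by linarith
  obtain ⟨A, hA⟩ : ∃ A : ℝ, A = Real.logb 2 (320 * ((m : ℝ) + 2) / ε) := ⟨_, rfl⟩
  have hA0 : 0 ≤ A := by
    rw [hA]
    apply Real.logb_nonneg (by norm_num)
    rw [le_div_iff₀ hε0]
    nlinarith
  obtain ⟨C₂, hC₂⟩ : ∃ C₂ : ℝ, C₂ = 30 * (36 * ((m : ℝ) + 2)) ^ (m + 2) * (A + 2) ^ (m + 3)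
      * 2 ^ (2 ^ (m + 1) - 1) := ⟨_, rfl⟩
  have hC1 : 1 ≤ C₂ := by
    rw [hC₂]
    have h1 : (1 : ℝ) ≤ (36 * ((m : ℝ) + 2)) ^ (m + 2) := one_le_pow₀ (by linarith)
    have h2 : (1 : ℝ) ≤ (A + 2) ^ (m + 3) := one_le_pow₀ (by linarith)
    have h3 : (1 : ℝ) ≤ 2 ^ (2 ^ (m + 1) - 1) := one_le_pow₀ (by norm_num)
    have h4 : (1 : ℝ) ≤ 30 * (36 * ((m : ℝ) + 2)) ^ (m + 2) := by linarith
    have h5 := one_le_mul_of_one_le_of_one_le h4 h2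
    exact one_le_mul_of_one_le_of_one_le h5 h3
  have hC0 : 0 < C₂ := by linarith
  have hc1 : C₂ ^ (-γ) ≤ 1 := Real.rpow_le_one_of_one_le_of_nonpos hC1 (by linarith)
  refine ⟨C₂ ^ (-γ), Real.rpow_pos_of_pos hC0 _, ?_⟩
  intro n N hN h
  rw [← hK, ← hγ] at h
  rw [← hK]
  have hn2 : 2 ≤ n := by
    by_contra hlt
    have hl0 : Real.logb 2 (n : ℝ) = 0 := by
      have : n = 0 ∨ n = 1 := by omega
      rcases this with rfl | rfl <;> simp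
    rw [hl0, zero_pow (by omega), div_zero, Real.zero_rpow hγ0.ne', mul_zero] at h
    linarith
  obtain ⟨ℓ, hℓ⟩ : ∃ ℓ : ℝ, ℓ = Real.logb 2 (n : ℝ) := ⟨_, rfl⟩
  rw [← hℓ] at h
  have hn2r : (2 : ℝ) ≤ n := by exact_mod_cast hn2
  have hn0 : (0 : ℝ) < n := by linarith
  have hℓ1 : 1 ≤ ℓ := by
    rw [hℓ]
    have := Real.logb_le_logb_of_le (b := 2) (by norm_num) (by norm_num : (0 : ℝ) < 2) hn2r
    rwa [Real.logb_self_eq_one (by norm_num)] at this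
  have hℓ0 : 0 < ℓ := by linarith
  obtain ⟨z, hz⟩ : ∃ z : ℝ, z = (n : ℝ) / ℓ ^ (m + 3) := ⟨_, rfl⟩
  rw [← hz] at h
  have hℓp : 1 ≤ ℓ ^ (m + 3) := one_le_pow₀ hℓ1
  have hzn : z ≤ n := by
    rw [hz]; exact div_le_self hn0.le hℓp
  have hz0 : 0 < z := by rw [hz]; positivity
  have hzγ0 : 0 ≤ z ^ γ := Real.rpow_nonneg hz0.le _
  have hNz : N ≤ z ^ γ := by
    refine le_trans h ?_
    exact mul_le_of_le_one_left hzγ0 hc1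
  have hz1 : 1 ≤ z := by
    by_contra hlt
    push Not at hlt
    have := Real.rpow_lt_one hz0.le hlt hγ0
    linarith
  have hNn : N ≤ (n : ℝ) ^ 2 := by
    calc N ≤ z ^ γ := hNz
      _ ≤ z ^ (2 : ℝ) := Real.rpow_le_rpow_of_exponent_le hz1 hγ2
      _ = z ^ 2 := Real.rpow_two z
      _ ≤ (n : ℝ) ^ 2 := pow_le_pow_left₀ hz0.le hzn 2
  obtain ⟨Λ, hΛ⟩ : ∃ Λ : ℝ, Λ = Real.logb 2 (160 * ((m : ℝ) + 2) * (N + 1) / ε) := ⟨_, rfl⟩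
  rw [← hΛ]
  have hN0 : 0 ≤ N := by linarith
  have hΛ0 : 0 ≤ Λ := by
    rw [hΛ]
    apply Real.logb_nonneg (by norm_num)
    rw [le_div_iff₀ hε0]
    nlinarith
  have hΛ1 : Λ ≤ A + 2 * ℓ := by
    have e : A + 2 * ℓ = Real.logb 2 (320 * ((m : ℝ) + 2) / ε * (n : ℝ) ^ 2) := by
      rw [Real.logb_mul (by positivity) (by positivity), Real.logb_pow, ← hA, ← hℓ]
      push_cast; ring
    rw [e, hΛ]
    apply Real.logb_le_logb_of_le (by norm_num) (by positivity)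
    rw [div_mul_eq_mul_div]
    apply div_le_div_of_nonneg_right _ hε0.le
    have h2 : N + 1 ≤ 2 * (n : ℝ) ^ 2 := by nlinarith
    have h3 : 0 ≤ 160 * ((m : ℝ) + 2) := by positivity
    calc 160 * ((m : ℝ) + 2) * (N + 1) ≤ 160 * ((m : ℝ) + 2) * (2 * (n : ℝ) ^ 2) :=
          mul_le_mul_of_nonneg_left h2 h3
      _ = 320 * ((m : ℝ) + 2) * (n : ℝ) ^ 2 := by ring
  have hΛ2 : Λ ≤ (A + 2) * ℓ := by nlinarith
  have hpow : (N ^ ((1 : ℝ) / K)) ^ (2 ^ (m + 1) - 1) = N ^ (1 / γ) := by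
    rw [← Real.rpow_natCast, ← Real.rpow_mul hN0]
    have e1 : ((2 ^ (m + 1) - 1 : ℕ) : ℝ) = K - 1 := by
      rw [Nat.cast_sub Nat.one_le_two_pow, hK]; push_cast; ring
    have e2 : (1 : ℝ) / K * ((2 ^ (m + 1) - 1 : ℕ) : ℝ) = 1 / γ := by
      rw [e1, hγ]
      field_simp
    rw [e2]
  have hNγ : N ^ (1 / γ) ≤ z / C₂ := by
    calc N ^ (1 / γ) ≤ (C₂ ^ (-γ) * z ^ γ) ^ (1 / γ) := Real.rpow_le_rpow hN0 h (by positivity)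
      _ = (C₂ ^ (-γ)) ^ (1 / γ) * (z ^ γ) ^ (1 / γ) :=
          Real.mul_rpow (Real.rpow_nonneg hC0.le _) hzγ0
      _ = C₂ ^ (-1 : ℝ) * z := by
          rw [← Real.rpow_mul hC0.le, ← Real.rpow_mul hz0.le]
          have e1 : -γ * (1 / γ) = -1 := by field_simp
          have e2 : γ * (1 / γ) = 1 := by field_simp
          rw [e1, e2, Real.rpow_one]
      _ = z / C₂ := by rw [Real.rpow_neg_one]; ring
  rw [mul_pow (2 : ℝ) (N ^ ((1 : ℝ) / K)), hpow]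
  have hB : 0 ≤ (A + 2) * ℓ := by positivity
  have key : 30 * ((A + 2) * ℓ) * (36 * ((m : ℝ) + 2) * ((A + 2) * ℓ)) ^ (m + 2)
      * 2 ^ (2 ^ (m + 1) - 1) = C₂ * ℓ ^ (m + 3) := by
    have gen : ∀ P B T l : ℝ, 30 * (B * l) * (P * (B * l)) ^ (m + 2) * T
        = 30 * P ^ (m + 2) * B ^ (m + 3) * T * l ^ (m + 3) := by
      intro P B T l
      ring
    rw [hC₂]; exact gen _ _ _ _
  have hNγ0 : 0 ≤ N ^ (1 / γ) := Real.rpow_nonneg hN0 _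
  calc 30 * Λ * (36 * ((m : ℝ) + 2) * Λ) ^ (m + 2) * (2 ^ (2 ^ (m + 1) - 1) * N ^ (1 / γ))
      ≤ 30 * ((A + 2) * ℓ) * (36 * ((m : ℝ) + 2) * ((A + 2) * ℓ)) ^ (m + 2)
          * (2 ^ (2 ^ (m + 1) - 1) * (z / C₂)) := by
        gcongr
    _ = (30 * ((A + 2) * ℓ) * (36 * ((m : ℝ) + 2) * ((A + 2) * ℓ)) ^ (m + 2)
          * 2 ^ (2 ^ (m + 1) - 1)) * (z / C₂) := by ring
    _ = C₂ * ℓ ^ (m + 3) * (z / C₂) := by rw [key]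
    _ = n := by rw [hz]; field_simp

/-- Asymptotic form.  WLOG `ε ≤ 1` (use `min ε 1`).  `K = 2 ^ (m + 1) ≥ 2`, `γ = K / (K - 1) ∈ (1, 2]`,
`A = logb 2 (320 (m + 2) / ε) > 0`, `C₂ = 30 (36 (m + 2)) ^ (m + 2) (A + 2) ^ (m + 3) 2 ^ (K - 1) ≥ 1`,
`c = C₂ ^ (-γ) ≤ 1`.  Let `N = n + a ≥ 1` (there is a qubit `o`), `ℓ = logb 2 n`.
If `n ≤ 1` then `ℓ = 0`, the right side of the hypothesis is `0` (`m + 3 ≠ 0`, division by zero,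
`Real.zero_rpow`), contradiction.  So `n ≥ 2`, `ℓ ≥ 1`.  Put `z = n / ℓ ^ (m + 3) ≤ n`.  As
`1 ≤ N ≤ c z ^ γ ≤ z ^ γ` we get `z ≥ 1`, `z ^ γ ≤ z ^ 2 ≤ n ^ 2`, so `N + 1 ≤ 2 n ^ 2` and
`0 ≤ Λ = logb 2 (160 (m + 2) (N + 1) / ε) ≤ A + 2 ℓ ≤ (A + 2) ℓ`.
`(2 N ^ (1 / K)) ^ (K - 1) = 2 ^ (K - 1) N ^ ((K - 1) / K)` and
`N ^ ((K - 1) / K) ≤ (c z ^ γ) ^ (1 / γ) = c ^ (1 / γ) z = z / C₂`.  Hence the left side of the hypothesis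
of `depth_general_rpow` is at most `C₂ ℓ ^ (m + 3) z / C₂ = n`. -/
theorem depth_general_asymp (m : ℕ) (ε : ℝ) (hε0 : 0 < ε) :
    ∃ c : ℝ, 0 < c ∧ ∀ (n a : ℕ) (C : List (List (Gate (Fin n ⊕ Fin a)))) (o : Fin n ⊕ Fin a),
      circuitValid C → entanglingDepth C ≤ m + 4 →
      (n : ℝ) + a ≤ c * ((n : ℝ) / (Real.logb 2 n) ^ (m + 3))
        ^ ((2 : ℝ) ^ (m + 1) / ((2 : ℝ) ^ (m + 1) - 1)) →
      |parityCorrelation C o| ≤ ε := by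
  obtain ⟨c, hc0, hc⟩ := asymp_real m (min ε 1) (lt_min hε0 one_pos) (min_le_right _ _)
  refine ⟨c, hc0, ?_⟩
  intro n a C o hC hd h
  have hN : 1 ≤ n + a := by
    rcases o with i | i
    · have := i.pos; omega
    · have := i.pos; omega
  have hNr : (1 : ℝ) ≤ (n : ℝ) + a := by exact_mod_cast hN
  refine le_trans (depth_general_rpow C hC m hd o (min ε 1) (lt_min hε0 one_pos)
    (min_le_right _ _) ?_) (min_le_left _ _)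
  exact hc n ((n : ℝ) + a) hNr h

end Vale.Agent.Lib.P368
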