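import Vale.Agent.Lib.P368.D4.Final4

/-! # From the exponent to the bound (logarithms) -/

namespace Vale.Agent.Lib.P368

theorem log_thirtynine_le : Real.log 39 ≤ 53 / 10 * Real.log 2 := by
  have h : Real.log ((39 : ℝ) ^ 10) ≤ Real.log ((2 : ℝ) ^ 53) :=
    Real.log_le_log (by positivity) (by norm_num)
  rw [Real.log_pow, Real.log_pow] at h
  push_cast at h
  linarith

/-- `cost4` (`D4/Final4.lean`): `(1 + 2 c) c (1 + 2 c) ≤ 9 c ^ 3`, so the left side is at most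
`9 * 39 ^ (2 E + 3 T) * gam ^ n`.  Logarithms (`log_gam` in `D4/Scalar4.lean`):
`log 39 ≤ (53 / 10) log 2` (`39 ^ 10 ≤ 2 ^ 53`), `(53 / 10) (n / 30) + n / 15 ≤ n / 4`. -/
theorem costG (n E T : ℕ) (ε : ℝ) (hε0 : 0 < ε) (hX : 30 * ((2 * E + 3 * T : ℕ) : ℝ) ≤ n)
    (hε : 15 * Real.logb 2 (36 / ε) ≤ n) (c : ℝ) (hc : c = 39 ^ T) :
    39 ^ E * ((1 + 2 * c) * c * (1 + 2 * c)) * 39 ^ E * gam ^ n ≤ ε / 4 := by
  have hc1 : (1 : ℝ) ≤ c := by rw [hc]; exact one_le_pow₀ (by norm_num)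
  have h4 := cost4 c hc1
  have hgp := gam_pos
  have hg : 0 ≤ gam ^ n := pow_nonneg hgp.le _
  have hE : (0 : ℝ) ≤ 39 ^ E := by positivity
  obtain ⟨X, hXdef⟩ : ∃ X : ℕ, X = 2 * E + 3 * T := ⟨_, rfl⟩
  rw [← hXdef] at hX
  have step : 39 ^ E * ((1 + 2 * c) * c * (1 + 2 * c)) * 39 ^ E * gam ^ n
      ≤ 9 * (39 : ℝ) ^ X * gam ^ n := by
    have e : 39 ^ E * (9 * c ^ 3) * 39 ^ E = 9 * (39 : ℝ) ^ X := by
      rw [hc, hXdef, pow_add, pow_mul', pow_mul']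
      ring
    calc 39 ^ E * ((1 + 2 * c) * c * (1 + 2 * c)) * 39 ^ E * gam ^ n
        ≤ 39 ^ E * (9 * c ^ 3) * 39 ^ E * gam ^ n := by gcongr
      _ = 9 * (39 : ℝ) ^ X * gam ^ n := by rw [e]
  refine step.trans ?_
  have hl2 : 0 < Real.log 2 := Real.log_pos (by norm_num)
  have key : Real.log (9 * (39 : ℝ) ^ X * gam ^ n) ≤ Real.log (ε / 4) := by
    rw [Real.log_mul (by positivity) (by positivity), Real.log_mul (by norm_num) (by positivity),
      Real.log_pow, Real.log_pow, log_gam, Real.log_div hε0.ne' (by norm_num)]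
    have h39 := log_thirtynine_le
    have hX0 : (0 : ℝ) ≤ X := Nat.cast_nonneg _
    have g1 : (X : ℝ) * Real.log 39 ≤ (X : ℝ) * (53 / 10 * Real.log 2) :=
      mul_le_mul_of_nonneg_left h39 hX0
    have g2 : 30 * (X : ℝ) * Real.log 2 ≤ n * Real.log 2 :=
      mul_le_mul_of_nonneg_right hX hl2.le
    have g3 : 15 * (Real.log 36 - Real.log ε) ≤ n * Real.log 2 := by
      have : Real.logb 2 (36 / ε) * Real.log 2 = Real.log (36 / ε) := by
        rw [Real.logb, div_mul_cancel₀ _ hl2.ne']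
      rw [← Real.log_div (by norm_num) hε0.ne', ← this]
      calc 15 * (Real.logb 2 (36 / ε) * Real.log 2)
          = 15 * Real.logb 2 (36 / ε) * Real.log 2 := by ring
        _ ≤ n * Real.log 2 := mul_le_mul_of_nonneg_right hε hl2.le
    have e36 : Real.log 36 = Real.log 9 + Real.log 4 := by
      rw [← Real.log_mul (by norm_num) (by norm_num)]
      norm_num
    have hn0 : (0 : ℝ) ≤ n * Real.log 2 := by positivity
    rw [e36] at g3
    linarith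
  exact (Real.log_le_log_iff (by positivity) (by positivity)).1 key

/-- `Λ ≥ logb 2 (640 / ε) ≥ max 9 (logb 2 (36 / ε))`, the other factors are at least one -/
theorem logG (m X : ℕ) (N : ℕ) (ε Λ : ℝ) (hε0 : 0 < ε) (hε1 : ε ≤ 1) (hN : 1 ≤ N) (hX : 1 ≤ X)
    (hΛ : Λ = Real.logb 2 (160 * ((m : ℝ) + 2) * ((N : ℝ) + 1) / ε)) :
    15 * Real.logb 2 (36 / ε) ≤ 30 * Λ * (36 * ((m : ℝ) + 2) * Λ) ^ (m + 2) * (X : ℝ) := by
  have hm : (0 : ℝ) ≤ m := Nat.cast_nonneg _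
  have hN' : (1 : ℝ) ≤ N := by exact_mod_cast hN
  have hX' : (1 : ℝ) ≤ X := by exact_mod_cast hX
  have hbig : (640 : ℝ) ≤ 160 * ((m : ℝ) + 2) * ((N : ℝ) + 1) := by nlinarith
  have h1 : Real.logb 2 (36 / ε) ≤ Λ := by
    rw [hΛ]
    apply Real.logb_le_logb_of_le (by norm_num) (by positivity)
    apply div_le_div_of_nonneg_right _ hε0.le
    linarith
  have h2 : (1 : ℝ) ≤ Λ := by
    rw [hΛ]
    have : (2 : ℝ) ≤ 160 * ((m : ℝ) + 2) * ((N : ℝ) + 1) / ε := by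
      rw [le_div_iff₀ hε0]
      nlinarith
    calc (1 : ℝ) = Real.logb 2 2 := (Real.logb_self_eq_one (by norm_num)).symm
      _ ≤ _ := Real.logb_le_logb_of_le (by norm_num) (by norm_num) this
  have h3 : (1 : ℝ) ≤ 36 * ((m : ℝ) + 2) * Λ := by nlinarith
  have h4 : (1 : ℝ) ≤ (36 * ((m : ℝ) + 2) * Λ) ^ (m + 2) := one_le_pow₀ h3
  have h5 : 30 * Λ ≤ 30 * Λ * (36 * ((m : ℝ) + 2) * Λ) ^ (m + 2) :=
    le_mul_of_one_le_right (by linarith) h4
  have h6 : 30 * Λ * (36 * ((m : ℝ) + 2) * Λ) ^ (m + 2)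
      ≤ 30 * Λ * (36 * ((m : ℝ) + 2) * Λ) ^ (m + 2) * (X : ℝ) :=
    le_mul_of_one_le_right (by positivity) hX'
  linarith

end Vale.Agent.Lib.P368
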