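import Vale.Agent.Lib.P368.DG.ScalEta
import Vale.Agent.Lib.P368.D4R.ScalarB

/-! # The total error at general depth -/

namespace Vale.Agent.Lib.P368

theorem errG_fin (e w ε : ℝ) (hε0 : 0 < ε) (hε1 : ε ≤ 1) (he1 : 1 ≤ e) (he2 : e - 1 ≤ ε / 500)
    (hw1 : 1 ≤ w) (hw3 : w ≤ 1 + ε / 2000) :
    w * ((2 * e - 1) * e * (2 * e - 1)) * w - 1 ≤ ε / 4 := by
  have hδ : e - 1 ≤ 12 * (ε / 6) / 1000 := by linarith
  have hδ0 : 0 ≤ e - 1 := by linarith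
  have hA := errR_final (e - 1) (ε / 6) hδ0 (by linarith) hδ
  have hee : 1 + (e - 1) = e := by ring
  rw [hee] at hA
  generalize (2 * e - 1) * e * (2 * e - 1) = A at hA ⊢
  have hww : w * w ≤ 1 + 3 * ε / 2000 := by
    have : w * w ≤ (1 + ε / 2000) * (1 + ε / 2000) :=
      mul_le_mul hw3 hw3 (by linarith) (by linarith)
    nlinarith
  have hww1 : 1 ≤ w * w := by nlinarith
  have e9 : w * A * w = (w * w) * A := by ring
  rw [e9]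
  have hA1 : A ≤ 1 + ε / 24 := by linarith
  generalize w * w = W at hww hww1 ⊢
  have h1 : W * A ≤ W * (1 + ε / 24) := mul_le_mul_of_nonneg_left hA1 (by linarith)
  have h2 : W * (1 + ε / 24) ≤ (1 + 3 * ε / 2000) * (1 + ε / 24) :=
    mul_le_mul_of_nonneg_right hww (by linarith)
  nlinarith

theorem errG_e (N : ℕ) (hN : 1 ≤ N) (ε η b x e : ℝ) (hε1 : ε ≤ 1) (hx0 : 0 ≤ x)
    (hNx : ((N : ℝ) + 1) * x ≤ ε / 2000) (hη0 : 0 ≤ η) (hηx : η ≤ x) (hb1 : 1 ≤ b)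
    (hb : b ≤ 1 + x) (he : e = (1 + η) * b ^ (Nat.log 2 N + 2)) :
    1 ≤ e ∧ e - 1 ≤ ε / 500 := by
  have hc : 1 + η ≤ 1 + x := by linarith
  have hc1 : 1 ≤ 1 + η := by linarith
  have hpow : b ^ (Nat.log 2 N + 2) ≤ (1 + x) ^ (Nat.log 2 N + 2) :=
    pow_le_pow_left₀ (by linarith) hb _
  have hpow1 : 1 ≤ b ^ (Nat.log 2 N + 2) := one_le_pow₀ hb1
  have he1 : 1 ≤ e := by
    rw [he]
    calc (1 : ℝ) = 1 * 1 := by ring
      _ ≤ _ := mul_le_mul hc1 hpow1 (by norm_num) (by linarith)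
  have he2 : e ≤ (1 + x) ^ (Nat.log 2 N + 2 + 1) := by
    have e5 : (1 + x) ^ (Nat.log 2 N + 2 + 1) = (1 + x) * (1 + x) ^ (Nat.log 2 N + 2) := by ring
    rw [he, e5]
    exact mul_le_mul hc hpow (by linarith) (by linarith)
  have hMN : ((Nat.log 2 N + 2 + 1 : ℕ) : ℝ) ≤ 2 * ((N : ℝ) + 1) := by
    have : Nat.log 2 N ≤ N := Nat.log_le_self 2 N
    have : Nat.log 2 N + 2 + 1 ≤ 2 * (N + 1) := by omega
    exact_mod_cast this
  have hMx : ((Nat.log 2 N + 2 + 1 : ℕ) : ℝ) * x ≤ ε / 1000 := by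
    have h6 : ((Nat.log 2 N + 2 + 1 : ℕ) : ℝ) * x ≤ 2 * ((N : ℝ) + 1) * x :=
      mul_le_mul_of_nonneg_right hMN hx0
    linarith
  have he3 := errR_pow_le x hx0 (Nat.log 2 N + 2 + 1) (by linarith)
  exact ⟨he1, by linarith⟩

/-- With `β = 97 K ^ 2 ≥ 97`, `v = 2 β ^ (m + 1) / 2 ^ L ≤ ε / (2000 (N + 1))`.  By `etas_le`:
`etas i ≤ 2 β ^ i / 2 ^ L ≤ v / β`, so `etas i ≤ 1 / 8` and `224 K ^ 2 etas i ≤ 224 v / 97 ≤ 1`.
`etas m ≤ v`, `2 / 2 ^ L ≤ v`, `84 K ^ 2 etas m ≤ v`, so `e ≤ (1 + 2 v) ^ M` with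
`M = Nat.log 2 N + 3 ≤ 2 (N + 1)`, `(1 + x) ^ M ≤ exp (M x) ≤ 1 + 2 M x`, `e ≤ 1 + ε / 250`,
`(2 e - 1) e (2 e - 1) ≤ 1 + 7 (e - 1)`.  By `ws_le`: `1 ≤ w ≤ 1 + N v ≤ 1 + ε / 2000`. -/
theorem errG (N L m : ℕ) (ε : ℝ) (hε0 : 0 < ε) (hε1 : ε ≤ 1) (hN : 1 ≤ N) (K : ℝ) (hK : 1 ≤ K)
    (hL : 4000 * ((N : ℝ) + 1) * (97 * K ^ 2) ^ (m + 1) ≤ ε * 2 ^ L) (e w : ℝ)
    (he : e = (1 + etas L K m) * (1 + 2 / 2 ^ L + 84 * K ^ 2 * etas L K m)
      ^ (Nat.log 2 N + 2))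
    (hw : w = ws N L K m) :
    (∀ i ≤ m, 0 ≤ etas L K i ∧ etas L K i ≤ 1 / 8 ∧ 224 * K ^ 2 * etas L K i ≤ 1) ∧
      w * ((2 * e - 1) * e * (2 * e - 1)) * w - 1 ≤ ε / 4 := by
  have hN1 : (1 : ℝ) ≤ N := by exact_mod_cast hN
  have hE0 := etas_le L K hK m
  have hW0 := ws_le N L K hK m
  have hypos : (0 : ℝ) < 2 ^ L := by positivity
  generalize (2 : ℝ) ^ L = y at *
  have hK2 : 1 ≤ K ^ 2 := one_le_pow₀ hK
  obtain ⟨β, hβ⟩ : ∃ β : ℝ, β = 97 * K ^ 2 := ⟨_, rfl⟩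
  rw [← hβ] at hL hE0 hW0
  have hβ97 : 97 ≤ β := by rw [hβ]; linarith
  have hβ1 : 1 ≤ β := by linarith
  have hβm1 : 1 ≤ β ^ m := one_le_pow₀ hβ1
  have hβs : β ^ (m + 1) = β * β ^ m := by ring
  obtain ⟨u, hu⟩ : ∃ u : ℝ, u = 2 * β ^ m / y := ⟨_, rfl⟩
  have hu0 : 0 ≤ u := by rw [hu]; positivity
  have hmain : 2000 * ((N : ℝ) + 1) * (β * u) ≤ ε := by
    have e1 : 2000 * ((N : ℝ) + 1) * (β * u) = (4000 * ((N : ℝ) + 1) * β ^ (m + 1)) / y := by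
      rw [hu, hβs]; field_simp; ring
    rw [e1, div_le_iff₀ hypos]
    exact hL
  have hβu0 : 0 ≤ β * u := by positivity
  have huβu : 97 * u ≤ β * u := mul_le_mul_of_nonneg_right hβ97 hu0
  have hv4000 : β * u ≤ ε / 4000 := by nlinarith
  have hNv : ((N : ℝ) + 1) * (β * u) ≤ ε / 2000 := by nlinarith
  have hy1 : 4000 * ((N : ℝ) + 1) * β ^ (m + 1) ≤ y := by
    have : ε * y ≤ 1 * y := mul_le_mul_of_nonneg_right hε1 hypos.le
    linarith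
  have hββ : β ^ m ≤ β ^ (m + 1) := by
    rw [hβs]; nlinarith
  have hβm0 : 0 ≤ β ^ m := by positivity
  have h16N : 16 * ((N : ℝ) + 1) * β ^ m ≤ y := by
    have h1 : 16 * ((N : ℝ) + 1) * β ^ m ≤ 4000 * ((N : ℝ) + 1) * β ^ (m + 1) := by
      have hN0 : 0 ≤ (N : ℝ) + 1 := by positivity
      have : ((N : ℝ) + 1) * β ^ m ≤ ((N : ℝ) + 1) * β ^ (m + 1) :=
        mul_le_mul_of_nonneg_left hββ hN0
      have h0 : 0 ≤ ((N : ℝ) + 1) * β ^ (m + 1) := by positivity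
      nlinarith
    linarith
  have h16 : 16 * β ^ m ≤ y := by nlinarith
  have hE := hE0 h16
  have hW := hW0 h16N
  have hu8 : u ≤ 1 / 8 := by
    rw [hu, div_le_iff₀ hypos]; linarith
  have hEu : ∀ i ≤ m, 0 ≤ etas L K i ∧ etas L K i ≤ u := by
    intro i hi
    refine ⟨(hE i hi).1, le_trans (hE i hi).2 ?_⟩
    rw [hu]
    apply div_le_div_of_nonneg_right _ hypos.le
    have : β ^ i ≤ β ^ m := pow_le_pow_right₀ hβ1 hi
    linarith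
  have hK2u : K ^ 2 * u = β * u / 97 := by rw [hβ]; ring
  refine ⟨?_, ?_⟩
  · intro i hi
    obtain ⟨h0, h1⟩ := hEu i hi
    refine ⟨h0, le_trans h1 hu8, ?_⟩
    have : K ^ 2 * etas L K i ≤ K ^ 2 * u := mul_le_mul_of_nonneg_left h1 (by positivity)
    have e1 : 224 * K ^ 2 * etas L K i = 224 * (K ^ 2 * etas L K i) := by ring
    rw [e1]
    rw [hK2u] at this
    linarith
  · obtain ⟨hη0, hηu⟩ := hEu m le_rfl
    obtain ⟨hw1, hw2⟩ := hW m le_rfl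
    rw [← hw] at hw1 hw2
    generalize etas L K m = η at *
    have h2y : 2 / y ≤ u := by
      rw [hu]
      apply div_le_div_of_nonneg_right _ hypos.le
      linarith
    have h2y0 : 0 ≤ 2 / y := by positivity
    have hKη : K ^ 2 * η ≤ β * u / 97 := by
      have : K ^ 2 * η ≤ K ^ 2 * u := mul_le_mul_of_nonneg_left hηu (by positivity)
      rw [hK2u] at this
      exact this
    have hKη0 : 0 ≤ K ^ 2 * η := by positivity
    have e1 : 84 * K ^ 2 * η = 84 * (K ^ 2 * η) := by ring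
    have hb : 1 + 2 / y + 84 * K ^ 2 * η ≤ 1 + β * u := by
      rw [e1]
      linarith
    have hb1 : 1 ≤ 1 + 2 / y + 84 * K ^ 2 * η := by
      rw [e1]
      linarith
    obtain ⟨he1, he2⟩ := errG_e N hN ε η _ (β * u) e hε1 hβu0 hNv hη0 (by linarith) hb1 hb he
    have hw3 : w ≤ 1 + ε / 2000 := by
      rw [← hu] at hw2
      have h2 : (N : ℝ) * u ≤ ((N : ℝ) + 1) * (β * u) := by
        have : u ≤ β * u := by linarith
        have h3 : (N : ℝ) * u ≤ (N : ℝ) * (β * u) := mul_le_mul_of_nonneg_left this (by positivity)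
        nlinarith
      linarith
    exact errG_fin e w ε hε0 hε1 he1 he2 hw1 hw3

end Vale.Agent.Lib.P368
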