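import Vale.Agent.Lib.P368.DG.ScalQ
import Vale.Agent.Lib.P368.DG.ScalT

/-! # The total exponent at general depth -/

namespace Vale.Agent.Lib.P368

/-- With `X = x ^ (2 ^ (m + 1) - 1)`: `Es_le`: `E ≤ 3 L (9 L) ^ m X`.  `totExpQ_le`, `Qs_le`:
`T ≤ 24 (log N + 2) Q L sqrt N`, `Q ≤ L (9 L) ^ m x ^ (2 ^ m - 1)`, `sqrt N ≤ x ^ (2 ^ m)` (as
`N ≤ (x ^ (2 ^ m)) ^ 2`), `x ^ (2 ^ m - 1) * x ^ (2 ^ m) = X`; `Nat.log 2 N + 2 ≤ Λ`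
(`Real.natLog_le_logb`, or `2 ^ Nat.log 2 N ≤ N` and `4 N ≤ 160 (m + 2) (N + 1) / ε`).  So
`2 E + 3 T ≤ (6 L + 72 Λ L ^ 2) (9 L) ^ m X ≤ 78 Λ L ^ 2 (9 L) ^ m X`, and with `ℓ = 4 (m + 2) Λ ≥ L`:
`L ^ 2 (9 L) ^ m ≤ ℓ ^ 2 (9 ℓ) ^ m = (9 ℓ) ^ (m + 2) / 81`. -/
theorem expG_le (N m x L : ℕ) (ε Λ : ℝ) (hε0 : 0 < ε) (hε1 : ε ≤ 1) (hN : 1 ≤ N) (hx : 1 ≤ x)
    (hNx : N ≤ x ^ (2 ^ (m + 1))) (hL : 1 ≤ L)
    (hΛ : Λ = Real.logb 2 (160 * ((m : ℝ) + 2) * ((N : ℝ) + 1) / ε))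
    (hLΛ : (L : ℝ) ≤ 4 * ((m : ℝ) + 2) * Λ) :
    ((2 * Es N L (tx x) m
        + 3 * totExp (fun s => (Nat.sqrt s + 1) * Qs L (tx x) m) N L : ℕ) : ℝ)
      ≤ Λ * (36 * ((m : ℝ) + 2) * Λ) ^ (m + 2) * (x : ℝ) ^ (2 ^ (m + 1) - 1) := by
  obtain ⟨hQ1, hQ2⟩ := Qs_le x L hx hL m
  have hE := Es_le x L N m hx hL hNx m
  have hT := totExpQ_le N L (Qs L (tx x) m) hN hL hQ1
  generalize Qs L (tx x) m = Q at hQ1 hQ2 hT ⊢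
  generalize Es N L (tx x) m = E at hE ⊢
  generalize totExp (fun s => (Nat.sqrt s + 1) * Q) N L = T at hT ⊢
  have hxR : (1 : ℝ) ≤ x := by exact_mod_cast hx
  have hLR : (1 : ℝ) ≤ L := by exact_mod_cast hL
  have hNR : (1 : ℝ) ≤ N := by exact_mod_cast hN
  have hm0 : (0 : ℝ) ≤ m := Nat.cast_nonneg m
  have hx0 : (0 : ℝ) < x := by linarith
  have hsq : Real.sqrt N ≤ (x : ℝ) ^ (2 ^ m) := by
    rw [Real.sqrt_le_iff]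
    refine ⟨by positivity, ?_⟩
    have h1 : (N : ℝ) ≤ ((x ^ (2 ^ (m + 1)) : ℕ) : ℝ) := by exact_mod_cast hNx
    calc (N : ℝ) ≤ ((x ^ (2 ^ (m + 1)) : ℕ) : ℝ) := h1
      _ = ((x : ℝ) ^ (2 ^ m)) ^ 2 := by
        push_cast
        rw [← pow_mul, pow_succ]
  have hpow : (x : ℝ) ^ (2 ^ m - 1) * (x : ℝ) ^ (2 ^ m) = (x : ℝ) ^ (2 ^ (m + 1) - 1) := by
    rw [← pow_add]
    congr 1
    have h1 : 1 ≤ 2 ^ m := Nat.one_le_two_pow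
    rw [pow_succ]
    omega
  have hΛ2 : (Nat.log 2 N : ℝ) + 2 ≤ Λ := by
    have hpos : (0 : ℝ) < 160 * ((m : ℝ) + 2) * ((N : ℝ) + 1) / ε := by positivity
    rw [hΛ, Real.le_logb_iff_rpow_le (by norm_num) hpos,
      show ((Nat.log 2 N : ℝ) + 2) = ((Nat.log 2 N + 2 : ℕ) : ℝ) by push_cast; ring,
      Real.rpow_natCast, le_div_iff₀ hε0]
    have h1 : ((2 ^ Nat.log 2 N : ℕ) : ℝ) ≤ N := by
      exact_mod_cast Nat.pow_log_le_self 2 (by omega)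
    push_cast at h1
    have h2 : (2 : ℝ) ^ (Nat.log 2 N + 2) = 2 ^ Nat.log 2 N * 4 := by
      rw [pow_add]
      norm_num
    rw [h2]
    have h3 : (0 : ℝ) < 2 ^ Nat.log 2 N := by positivity
    have h4 : (2 : ℝ) ^ Nat.log 2 N * 4 * ε ≤ (2 : ℝ) ^ Nat.log 2 N * 4 * 1 := by gcongr
    nlinarith
  have hΛ1 : (2 : ℝ) ≤ Λ := by
    have : (0 : ℝ) ≤ (Nat.log 2 N : ℝ) := Nat.cast_nonneg _
    linarith
  set X : ℝ := (x : ℝ) ^ (2 ^ (m + 1) - 1) with hX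
  have hX0 : 0 < X := by positivity
  have hER : (E : ℝ) ≤ 3 * L * (9 * L) ^ m * X := by
    rw [hX]
    exact_mod_cast hE
  have hQR : (Q : ℝ) ≤ L * (9 * L) ^ m * (x : ℝ) ^ (2 ^ m - 1) := by exact_mod_cast hQ2
  have hTR : (T : ℝ) ≤ 24 * Λ * L ^ 2 * (9 * L) ^ m * X := by
    calc (T : ℝ) ≤ 24 * ((Nat.log 2 N : ℝ) + 2) * Q * L * Real.sqrt N := hT
      _ ≤ 24 * Λ * (L * (9 * L) ^ m * (x : ℝ) ^ (2 ^ m - 1)) * L * (x : ℝ) ^ (2 ^ m) := by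
        gcongr
      _ = 24 * Λ * L ^ 2 * (9 * L) ^ m * ((x : ℝ) ^ (2 ^ m - 1) * (x : ℝ) ^ (2 ^ m)) := by ring
      _ = 24 * Λ * L ^ 2 * (9 * L) ^ m * X := by rw [hpow]
  set l : ℝ := 4 * ((m : ℝ) + 2) * Λ with hl
  have hl0 : 0 < l := by positivity
  have hA : ((9 : ℝ) * L) ^ m ≤ (9 * l) ^ m := by gcongr
  have hB : (L : ℝ) ^ 2 ≤ l ^ 2 := by gcongr
  have hR : Λ * (36 * ((m : ℝ) + 2) * Λ) ^ (m + 2) * X = 81 * Λ * l ^ 2 * (9 * l) ^ m * X := by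
    rw [show 36 * ((m : ℝ) + 2) * Λ = 9 * l by rw [hl]; ring, pow_add]
    ring
  rw [hR]
  push_cast
  have hA0 : (0 : ℝ) < (9 * L) ^ m := by positivity
  have hLL : (L : ℝ) ≤ Λ * L ^ 2 := by nlinarith
  calc 2 * (E : ℝ) + 3 * T
      ≤ 2 * (3 * L * (9 * L) ^ m * X) + 3 * (24 * Λ * L ^ 2 * (9 * L) ^ m * X) := by linarith
    _ = (6 * L + 72 * (Λ * L ^ 2)) * ((9 * L) ^ m * X) := by ring
    _ ≤ (6 * (Λ * L ^ 2) + 72 * (Λ * L ^ 2)) * ((9 * L) ^ m * X) := by gcongr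
    _ = 78 * Λ * L ^ 2 * (9 * L) ^ m * X := by ring
    _ ≤ 81 * Λ * l ^ 2 * (9 * l) ^ m * X := by gcongr; norm_num

end Vale.Agent.Lib.P368
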