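import Mathlib

/-! # Choice of the accuracy at general depth (pure real / natural arithmetic) -/

namespace Vale.Agent.Lib.P368

/-- `λ = ⌈logb 2 (80 (m + 2) (N + 1) / ε)⌉₊`, `Y = 2 ^ λ ≥ 80 (m + 2) (N + 1) / ε`, `L = 4 (m + 2) λ`,
`λ ≤ logb 2 (80 ..) + 1 = logb 2 (160 ..)`.  `2 ^ L = Y ^ 4 * (Y ^ 4) ^ (m + 1)`.
`(Nat.sqrt N + 1) ^ 2 ≤ 4 N`, so `97 K ^ 2 ≤ 388 N L ^ 2 = 6208 N (m + 2) ^ 2 λ ^ 2 ≤ Y ^ 4`, because
`Y ^ 2 ≥ 6400 (m + 2) ^ 2 N` and `λ ≤ Y` (`Nat.lt_two_pow_self`).  And `4000 (N + 1) / ε ≤ Y ^ 4`. -/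
theorem chooseL (N m : ℕ) (ε : ℝ) (hε0 : 0 < ε) (hε1 : ε ≤ 1) (hN : 1 ≤ N) :
    ∃ L : ℕ, 1 ≤ L ∧
      (L : ℝ) ≤ 4 * ((m : ℝ) + 2) * Real.logb 2 (160 * ((m : ℝ) + 2) * ((N : ℝ) + 1) / ε) ∧
      4000 * ((N : ℝ) + 1) * (97 * ((((Nat.sqrt N + 1) * L : ℕ) : ℝ)) ^ 2) ^ (m + 1)
        ≤ ε * 2 ^ L := by
  have hNr : (1 : ℝ) ≤ N := by exact_mod_cast hN
  have hm0 : (0 : ℝ) ≤ m := Nat.cast_nonneg m
  set A : ℝ := 80 * ((m : ℝ) + 2) * ((N : ℝ) + 1) / ε with hA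
  have hB : (320 : ℝ) ≤ 80 * ((m : ℝ) + 2) * ((N : ℝ) + 1) := by nlinarith
  have hAB : 80 * ((m : ℝ) + 2) * ((N : ℝ) + 1) ≤ A := by
    rw [hA, le_div_iff₀ hε0]
    nlinarith
  have hA320 : (320 : ℝ) ≤ A := hB.trans hAB
  have hApos : 0 < A := by linarith
  have hεA : ε * A = 80 * ((m : ℝ) + 2) * ((N : ℝ) + 1) := by
    rw [hA]; field_simp
  have hlogpos : 0 < Real.logb 2 A := Real.logb_pos (by norm_num) (by linarith)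
  set l : ℕ := ⌈Real.logb 2 A⌉₊ with hl
  have hl1 : 1 ≤ l := Nat.one_le_iff_ne_zero.2 (by
    rw [hl]; exact (Nat.ceil_pos.2 hlogpos).ne')
  have hlle : Real.logb 2 A ≤ l := Nat.le_ceil _
  have hllt : (l : ℝ) < Real.logb 2 A + 1 := Nat.ceil_lt_add_one hlogpos.le
  set Y : ℝ := 2 ^ l with hY
  have hYA : A ≤ Y := by
    have h1 : (2 : ℝ) ^ (Real.logb 2 A) = A := Real.rpow_logb (by norm_num) (by norm_num) hApos
    calc A = (2 : ℝ) ^ (Real.logb 2 A) := h1.symm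
      _ ≤ (2 : ℝ) ^ (l : ℝ) := Real.rpow_le_rpow_of_exponent_le (by norm_num) hlle
      _ = Y := by rw [hY, Real.rpow_natCast]
  have hYpos : 0 < Y := by positivity
  have hlY : (l : ℝ) ≤ Y := by
    have : l < 2 ^ l := Nat.lt_two_pow_self
    rw [hY]; exact_mod_cast this.le
  refine ⟨4 * (m + 2) * l, ?_, ?_, ?_⟩
  · nlinarith
  · have e : Real.logb 2 (160 * ((m : ℝ) + 2) * ((N : ℝ) + 1) / ε) = Real.logb 2 A + 1 := by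
      have : 160 * ((m : ℝ) + 2) * ((N : ℝ) + 1) / ε = A * 2 := by rw [hA]; ring
      rw [this, Real.logb_mul hApos.ne' (by norm_num), Real.logb_self_eq_one (by norm_num)]
    rw [e]
    push_cast
    have : (0 : ℝ) ≤ 4 * ((m : ℝ) + 2) := by positivity
    exact mul_le_mul_of_nonneg_left hllt.le this
  · -- main inequality
    have hpow : (2 : ℝ) ^ (4 * (m + 2) * l) = Y ^ 4 * (Y ^ 4) ^ (m + 1) := by
      rw [hY, ← pow_mul, ← pow_mul, ← pow_add]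
      congr 1; ring
    have hsq : ((Nat.sqrt N + 1 : ℕ) : ℝ) ^ 2 ≤ 4 * N := by
      have h1 : 1 ≤ Nat.sqrt N := Nat.sqrt_pos.2 hN
      have h2 : Nat.sqrt N ^ 2 ≤ N := Nat.sqrt_le' N
      have h3 : (Nat.sqrt N + 1) ^ 2 ≤ 4 * N := by nlinarith
      exact_mod_cast h3
    have hK : 97 * ((((Nat.sqrt N + 1) * (4 * (m + 2) * l) : ℕ) : ℝ)) ^ 2 ≤ Y ^ 4 := by
      have e1 : ((((Nat.sqrt N + 1) * (4 * (m + 2) * l) : ℕ) : ℝ)) ^ 2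
          = ((Nat.sqrt N + 1 : ℕ) : ℝ) ^ 2 * (16 * ((m : ℝ) + 2) ^ 2 * (l : ℝ) ^ 2) := by
        push_cast; ring
      rw [e1]
      have hY2 : 6400 * ((m : ℝ) + 2) ^ 2 * N ≤ Y ^ 2 := by
        have h1 : 80 * ((m : ℝ) + 2) * ((N : ℝ) + 1) ≤ Y := hAB.trans hYA
        have h2 : (80 * ((m : ℝ) + 2) * ((N : ℝ) + 1)) ^ 2 ≤ Y ^ 2 :=
          pow_le_pow_left₀ (by positivity) h1 2
        have h3 : 6400 * ((m : ℝ) + 2) ^ 2 * N ≤ (80 * ((m : ℝ) + 2) * ((N : ℝ) + 1)) ^ 2 := by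
          have : (N : ℝ) ≤ ((N : ℝ) + 1) ^ 2 := by nlinarith
          have h4 : (0 : ℝ) ≤ 6400 * ((m : ℝ) + 2) ^ 2 := by positivity
          calc 6400 * ((m : ℝ) + 2) ^ 2 * N ≤ 6400 * ((m : ℝ) + 2) ^ 2 * ((N : ℝ) + 1) ^ 2 :=
                mul_le_mul_of_nonneg_left this h4
            _ = (80 * ((m : ℝ) + 2) * ((N : ℝ) + 1)) ^ 2 := by ring
        exact h3.trans h2
      have hl2 : (l : ℝ) ^ 2 ≤ Y ^ 2 := pow_le_pow_left₀ (Nat.cast_nonneg l) hlY 2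
      calc 97 * (((Nat.sqrt N + 1 : ℕ) : ℝ) ^ 2 * (16 * ((m : ℝ) + 2) ^ 2 * (l : ℝ) ^ 2))
          ≤ 97 * ((4 * N) * (16 * ((m : ℝ) + 2) ^ 2 * (l : ℝ) ^ 2)) := by
            gcongr
        _ = (6208 * ((m : ℝ) + 2) ^ 2 * N) * (l : ℝ) ^ 2 := by ring
        _ ≤ (6400 * ((m : ℝ) + 2) ^ 2 * N) * (l : ℝ) ^ 2 := by
            gcongr; norm_num
        _ ≤ Y ^ 2 * Y ^ 2 := by gcongr
        _ = Y ^ 4 := by ring
    have hfirst : 4000 * ((N : ℝ) + 1) ≤ ε * Y ^ 4 := by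
      have h1 : 160 * ((N : ℝ) + 1) ≤ ε * Y := by
        calc 160 * ((N : ℝ) + 1) ≤ 80 * ((m : ℝ) + 2) * ((N : ℝ) + 1) := by nlinarith
          _ = ε * A := hεA.symm
          _ ≤ ε * Y := mul_le_mul_of_nonneg_left hYA hε0.le
      have h2 : (25 : ℝ) ≤ Y ^ 3 := by
        have : (3 : ℝ) ≤ Y := by linarith
        calc (25 : ℝ) ≤ 3 ^ 3 := by norm_num
          _ ≤ Y ^ 3 := pow_le_pow_left₀ (by norm_num) this 3
      calc 4000 * ((N : ℝ) + 1) = (160 * ((N : ℝ) + 1)) * 25 := by ring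
        _ ≤ (ε * Y) * Y ^ 3 := by gcongr
        _ = ε * Y ^ 4 := by ring
    rw [hpow]
    calc 4000 * ((N : ℝ) + 1) * (97 * ((((Nat.sqrt N + 1) * (4 * (m + 2) * l) : ℕ) : ℝ)) ^ 2) ^ (m + 1)
        ≤ (ε * Y ^ 4) * (Y ^ 4) ^ (m + 1) := by
          gcongr
      _ = ε * (Y ^ 4 * (Y ^ 4) ^ (m + 1)) := by ring

end Vale.Agent.Lib.P368
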