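import Vale.Agent.Lib.P368.DG.TopG
import Vale.Agent.Lib.P368.DG.ScalErr
import Vale.Agent.Lib.P368.DG.ScalL
import Vale.Agent.Lib.P368.DG.ScalExp
import Vale.Agent.Lib.P368.DG.ScalCost

/-! # Every entangling depth: a polynomial lower bound on the number of qubits -/

namespace Vale.Agent.Lib.P368

/-- entangling depth at most `m + 4`: if `n + a ≤ x ^ (2 ^ (m + 1))` and
`x ^ (2 ^ (m + 1) - 1)` times a polylogarithmic factor is at most `n`, the correlation is small -/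
theorem depth_general {n a : ℕ} (C : List (List (Gate (Fin n ⊕ Fin a))))
    (hC : circuitValid C) (m x : ℕ) (hd : entanglingDepth C ≤ m + 4) (o : Fin n ⊕ Fin a) (ε : ℝ)
    (hε0 : 0 < ε) (hε1 : ε ≤ 1) (hx : n + a ≤ x ^ (2 ^ (m + 1)))
    (h : 30 * Real.logb 2 (160 * ((m : ℝ) + 2) * ((n : ℝ) + a + 1) / ε)
      * (36 * ((m : ℝ) + 2) * Real.logb 2 (160 * ((m : ℝ) + 2) * ((n : ℝ) + a + 1) / ε)) ^ (m + 2)
      * (x : ℝ) ^ (2 ^ (m + 1) - 1) ≤ n) :
    |parityCorrelation C o| ≤ ε := by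
  have hN : 1 ≤ n + a := by
    rcases o with i | i
    · have := i.pos; omega
    · have := i.pos; omega
  have hx1 : 1 ≤ x := by
    rcases Nat.eq_zero_or_pos x with h0 | h0
    · subst h0
      rw [zero_pow (by positivity)] at hx
      omega
    · exact h0
  obtain ⟨Λ, hΛ⟩ : ∃ Λ : ℝ, Λ = Real.logb 2 (160 * ((m : ℝ) + 2) * (((n + a : ℕ) : ℝ) + 1) / ε) :=
    ⟨_, rfl⟩
  have hΛ' : Real.logb 2 (160 * ((m : ℝ) + 2) * ((n : ℝ) + a + 1) / ε) = Λ := by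
    rw [hΛ]; push_cast; rfl
  rw [hΛ'] at h
  obtain ⟨L, hL1, hLΛ, hmaster⟩ := chooseL (n + a) m ε hε0 hε1 hN
  rw [← hΛ] at hLΛ
  have hK1 : (1 : ℝ) ≤ (((Nat.sqrt (n + a) + 1) * L : ℕ) : ℝ) := by
    have : 1 ≤ (Nat.sqrt (n + a) + 1) * L := Nat.one_le_iff_ne_zero.2 (by positivity)
    exact_mod_cast this
  obtain ⟨hη, herr⟩ := errG (n + a) L m ε hε0 hε1 hN _ hK1 hmaster _ _ rfl rfl
  have hmain := depth_general_param C hC m hd o L (tx x) (fun i => Nat.one_le_pow _ _ hx1) _ rfl hη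
    _ _ _ rfl rfl rfl
  have hexp := expG_le (n + a) m x L ε Λ hε0 hε1 hN hx1 hx hL1 hΛ hLΛ
  have hlog := logG m (x ^ (2 ^ (m + 1) - 1)) (n + a) ε Λ hε0 hε1 hN (Nat.one_le_pow _ _ hx1) hΛ
  push_cast at hlog
  have hcost := costG n (Es (n + a) L (tx x) m) _ ε hε0 (by linarith) (by linarith) _ rfl
  linarith

end Vale.Agent.Lib.P368
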