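import Vale.Agent.Lib.P368.DG.FinalG

/-! # Every entangling depth: the bound in terms of a real power of the number of qubits -/

namespace Vale.Agent.Lib.P368

/-- `depth_general` with `k = 2 ^ (m + 1)`, `y = (n + a) ^ (1 / k) ≥ 1`, `x = ⌈y⌉₊`:
`n + a = y ^ k ≤ x ^ k` (`Real.rpow_natCast`, `Real.rpow_mul`, `Nat.le_ceil`, cast back to `ℕ`),
`x ≤ y + 1 ≤ 2 y` (`Nat.ceil_lt_add_one`), and the other factors are nonnegative
(`Λ ≥ 0` because the argument of the logarithm is at least one). -/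
theorem depth_general_rpow {n a : ℕ} (C : List (List (Gate (Fin n ⊕ Fin a))))
    (hC : circuitValid C) (m : ℕ) (hd : entanglingDepth C ≤ m + 4) (o : Fin n ⊕ Fin a) (ε : ℝ)
    (hε0 : 0 < ε) (hε1 : ε ≤ 1)
    (h : 30 * Real.logb 2 (160 * ((m : ℝ) + 2) * ((n : ℝ) + a + 1) / ε)
      * (36 * ((m : ℝ) + 2) * Real.logb 2 (160 * ((m : ℝ) + 2) * ((n : ℝ) + a + 1) / ε)) ^ (m + 2)
      * (2 * ((n : ℝ) + a) ^ ((1 : ℝ) / 2 ^ (m + 1))) ^ (2 ^ (m + 1) - 1) ≤ n) :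
    |parityCorrelation C o| ≤ ε := by
  have hN : 1 ≤ n + a := by
    rcases o with i | i
    · have := i.pos; omega
    · have := i.pos; omega
  have hNr : (1 : ℝ) ≤ (n : ℝ) + a := by exact_mod_cast hN
  have hN0 : (0 : ℝ) ≤ (n : ℝ) + a := by linarith
  have hm0 : (0 : ℝ) ≤ (m : ℝ) := Nat.cast_nonneg _
  obtain ⟨y, hy⟩ : ∃ y : ℝ, y = ((n : ℝ) + a) ^ ((1 : ℝ) / 2 ^ (m + 1)) := ⟨_, rfl⟩
  rw [← hy] at h
  have hy1 : 1 ≤ y := by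
    rw [hy]
    exact Real.one_le_rpow hNr (by positivity)
  have hyk : y ^ (2 ^ (m + 1)) = (n : ℝ) + a := by
    rw [hy, ← Real.rpow_natCast, ← Real.rpow_mul hN0]
    have : (1 : ℝ) / 2 ^ (m + 1) * ((2 ^ (m + 1) : ℕ) : ℝ) = 1 := by
      push_cast
      field_simp
    rw [this, Real.rpow_one]
  have hxy : y ≤ (⌈y⌉₊ : ℝ) := Nat.le_ceil y
  have hx2 : (⌈y⌉₊ : ℝ) ≤ 2 * y := by
    have := Nat.ceil_lt_add_one (by linarith : (0 : ℝ) ≤ y)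
    linarith
  have hx : n + a ≤ ⌈y⌉₊ ^ (2 ^ (m + 1)) := by
    have h1 : ((n + a : ℕ) : ℝ) ≤ ((⌈y⌉₊ ^ (2 ^ (m + 1)) : ℕ) : ℝ) := by
      push_cast
      rw [← hyk]
      exact pow_le_pow_left₀ (by linarith) hxy _
    exact_mod_cast h1
  obtain ⟨Λ, hΛ⟩ : ∃ Λ : ℝ, Λ = Real.logb 2 (160 * ((m : ℝ) + 2) * ((n : ℝ) + a + 1) / ε) :=
    ⟨_, rfl⟩
  have hΛ0 : 0 ≤ Λ := by
    rw [hΛ]
    apply Real.logb_nonneg (by norm_num)
    rw [le_div_iff₀ hε0]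
    nlinarith
  apply depth_general C hC m ⌈y⌉₊ hd o ε hε0 hε1 hx
  rw [← hΛ] at h ⊢
  refine le_trans ?_ h
  apply mul_le_mul_of_nonneg_left
  · exact pow_le_pow_left₀ (Nat.cast_nonneg _) hx2 _
  · positivity

end Vale.Agent.Lib.P368
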