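import Vale.Agent.Lib.P368.DG.LevelS
import Vale.Agent.Lib.P368.D4.Level3b

/-! # The large gates of a layer above a stack -/

namespace Vale.Agent.Lib.P368

open Matrix Finset
open scoped Matrix.Norms.L2Operator

set_option linter.unusedSectionVars false

variable {ι : Type} [Fintype ι] [DecidableEq ι]

/-- as `refl_apx` (`D4/Large.lean`): `H` for `prodOp r.2` with `S = r.1`, `Apx.one_sub_two`,
`1 + 2 * 39 ^ j ≤ 39 ^ (j + 1)` -/
theorem refl_apxS (σ : List (Finset ι × (ι → M2))) (hσ : ∀ r ∈ σ, ReflValid r) (η : ℝ) (Q : ℕ)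
    (H : LevelS σ η Q) (r : Finset ι × (ι → M2)) (hr : ReflValid r) :
    Apx σ (1 + 2 * η) (39 ^ gateExp Q r) (reflOp r) := by
  have h1 := H r.2 (fun j => hr.site j) r.1 hr.2
  have h2 := Apx.one_sub_two hσ h1
  refine Apx.mono h2 (le_of_eq (by ring)) ?_
  have h3 : (1 : ℝ) ≤ 39 ^ ((Nat.sqrt r.1.card + 1) * Q) := one_le_pow₀ (by norm_num)
  unfold gateExp
  rw [pow_succ]
  linarith

/-- `Apx.rlist` with `refl_apxS`, `prod_map_pow` (`D4/Level3b.lean`), `large_count`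
(`D4/Large.lean`): at most `N` gates, `t * ∑ gateExp ≤ (2 Q + 1) N`, `Nat.le_div_iff_mul_le` -/
theorem large_apxS (σ : List (Finset ι × (ι → M2))) (hσ : ∀ r ∈ σ, ReflValid r) (η : ℝ) (Q : ℕ)
    (H : LevelS σ η Q) (hη0 : 0 ≤ η) (ρl : List (Finset ι × (ι → M2))) (hρl : rlistValid ρl)
    (t : ℕ) (ht : 1 ≤ t) (hbig : ∀ r ∈ ρl, t * t < r.1.card) :
    Apx σ ((1 + 2 * η) ^ Fintype.card ι) (39 ^ (((2 * Q + 1) * Fintype.card ι) / t))
      (rlistOp ρl) := by
  obtain ⟨hK, hE⟩ := large_count ρl hρl t ht hbig Q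
  have aL := Apx.rlist hσ (1 + 2 * η) (by linarith) (fun r => (39 : ℝ) ^ gateExp Q r) ρl hρl.1
    (fun r hr => refl_apxS σ hσ η Q H r (hρl.1 r hr))
  rw [prod_map_pow] at aL
  refine aL.mono ?_ ?_
  · exact pow_le_pow_right₀ (by linarith) hK
  · refine pow_le_pow_right₀ (by norm_num) ?_
    rw [Nat.le_div_iff_mul_le ht, mul_comm]
    exact hE

end Vale.Agent.Lib.P368
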