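import Vale.Agent.Lib.P368.D4R.Dyadic

/-! # Stacks of layers: one more layer of small gates -/

namespace Vale.Agent.Lib.P368

open Matrix Finset
open scoped Matrix.Norms.L2Operator

set_option linter.unusedSectionVars false

variable {ι : Type} [Fintype ι] [DecidableEq ι]

/-- below the stack `σ` a product of one-site projectors on `s` sites is within `η` of an operator
of cost `39 ^ ((Nat.sqrt s + 1) * Q)` -/
def LevelS (σ : List (Finset ι × (ι → M2))) (η : ℝ) (Q : ℕ) : Prop :=
  LevelApx σ η (fun s => (Nat.sqrt s + 1) * Q)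

theorem sqrtQ_mono (Q : ℕ) : Monotone (fun s => (Nat.sqrt s + 1) * Q) := by
  intro s s' hs
  exact Nat.mul_le_mul_right _ (by have := Nat.sqrt_le_sqrt hs; omega)

theorem rlistOp_appendG (ρ σ : List (Finset ι × (ι → M2))) :
    rlistOp (ρ ++ σ) = rlistOp ρ * rlistOp σ := by
  simp [rlistOp]

theorem conjBy_append (ρ σ : List (Finset ι × (ι → M2))) (X : Op ι) :
    conjBy (ρ ++ σ) X = conjBy σ (conjBy ρ X) := by
  simp only [conjBy, rlistOp_appendG, Matrix.conjTranspose_mul, Matrix.mul_assoc]

theorem Apx.append {ρ σ : List (Finset ι × (ι → M2))} {e c : ℝ} {Y : Op ι}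
    (h : Apx σ e c (conjBy ρ Y)) : Apx (ρ ++ σ) e c Y := by
  unfold Apx at h ⊢
  rw [conjBy_append]
  exact h

end Vale.Agent.Lib.P368
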