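import Vale.Agent.Lib.P368.DG.Touch

/-! # One more layer of small gates on top of a stack -/

namespace Vale.Agent.Lib.P368

open Matrix Finset
open scoped Matrix.Norms.L2Operator

set_option linter.unusedSectionVars false

variable {ι : Type} [Fintype ι] [DecidableEq ι]

/-- Let `B` be trivial outside `S`, `ρ' = touching ρ S` (valid by `rlistValid_filter`, at most
`|S|` gates by `touching_length`).  `Apx.append`, `conjBy_touching`, `conjBy_outside ρ'`:
`conjBy ρ (prodOp B) = prodOp (B off the gates) * conjBy ρ' (prodOp (restr B (suppUnion ρ')))`.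
First factor: `H` with the same `S`.  Second factor: `class_apx` with `ηE = 7 η`,
`cE = 39 ^ (3 * ((t + 1) * Q) + 1)` (`gate_apx` with `s = t * t`, `Nat.sqrt (t * t) = t`),
`M = |S|`, `k = (Nat.sqrt |S| + 1) * L ≤ K`; then exactly as in `one_class` and `level_step`
(`D4R/Dyadic.lean`).  The exponents add up:
`(Nat.sqrt s + 1) * Q + (3 * ((t + 1) * Q) + 2) * ((Nat.sqrt s + 1) * L)`. -/
theorem mid_step (σ : List (Finset ι × (ι → M2))) (hσ : ∀ r ∈ σ, ReflValid r) (η : ℝ) (Q : ℕ)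
    (H : LevelS σ η Q) (hη0 : 0 ≤ η) (hη : η ≤ 1 / 8) (L : ℕ) (K : ℝ)
    (hK : K = (((Nat.sqrt (Fintype.card ι) + 1) * L : ℕ) : ℝ)) (hsmall : 224 * K ^ 2 * η ≤ 1)
    (ρ : List (Finset ι × (ι → M2))) (hρ : rlistValid ρ) (t : ℕ)
    (hsz : ∀ r ∈ ρ, r.1.card ≤ t * t) :
    LevelS (ρ ++ σ) ((1 + η) * (1 + 2 / 2 ^ L + 84 * K ^ 2 * η) - 1)
      (Q + (3 * ((t + 1) * Q) + 2) * L) := by
  intro B hB S hS
  apply Apx.append
  rw [conjBy_touching ρ hρ B S hS]
  set ρ' := touching ρ S with hρ'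
  have v' : rlistValid ρ' := rlistValid_filter hρ _
  rw [conjBy_outside ρ' v' B]
  have hB1 : SiteP (fun j => if j ∈ suppUnion ρ' then 1 else B j) := by
    intro j
    by_cases hj : j ∈ suppUnion ρ'
    · simp only [if_pos hj]; exact Or.inl trivial
    · simp only [if_neg hj]; exact hB j
  have h1 := H _ hB1 S (fun j hj => by
    by_cases hj' : j ∈ suppUnion ρ'
    · simp only [if_pos hj']
    · simp only [if_neg hj']; exact hS j hj)
  -- the second factor
  have hM : ρ'.length ≤ S.card := touching_length ρ hρ.2 S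
  set k : ℕ := (Nat.sqrt S.card + 1) * L with hk
  have hkK : (k : ℝ) ≤ K := by
    rw [hK]
    have h1 : S.card ≤ Fintype.card ι := Finset.card_le_univ _
    have h2 := Nat.sqrt_le_sqrt h1
    have h3 : k ≤ (Nat.sqrt (Fintype.card ι) + 1) * L := Nat.mul_le_mul_right _ (by omega)
    exact_mod_cast h3
  have hk0 : (0 : ℝ) ≤ k := Nat.cast_nonneg _
  have hk2 : (k : ℝ) ^ 2 ≤ K ^ 2 := pow_le_pow_left₀ hk0 hkK 2
  have hk2η : (k : ℝ) ^ 2 * η ≤ K ^ 2 * η := mul_le_mul_of_nonneg_right hk2 hη0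
  set cE : ℝ := 39 ^ (3 * ((t + 1) * Q) + 1) with hcE
  have hc1 : 1 ≤ cE := one_le_pow₀ (by norm_num)
  have hB' : SiteP (restr B (suppUnion ρ')) := hB.restr _
  have hgate : ∀ r ∈ ρ', Apx σ (1 + 7 * η) cE
      (reflOp r * prodOp (restr (restr B (suppUnion ρ')) r.1) * reflOp r) := by
    intro r hr
    have hrρ : r ∈ ρ := List.mem_of_mem_filter hr
    have h := gate_apx σ hσ η (fun s => (Nat.sqrt s + 1) * Q) (sqrtQ_mono Q) H hη0 hη r
      (v'.1 r hr) (t * t) (hsz r hrρ) (restr B (suppUnion ρ')) hB'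
    simp only [Nat.sqrt_eq] at h
    exact h
  have h := class_apx σ hσ ρ' v' (restr B (suppUnion ρ')) hB'
    (fun j hj => by unfold restr; rw [if_neg hj]) (7 * η) cE (by linarith) hc1
    hgate S.card hM L k hk (by nlinarith)
  have h2 : Apx σ (1 + 2 / 2 ^ L + 84 * K ^ 2 * η)
      (39 ^ ((3 * ((t + 1) * Q) + 2) * k)) (conjBy ρ' (prodOp (restr B (suppUnion ρ')))) := by
    refine h.mono (by nlinarith) ?_
    have h4 : 4 * cE + 3 ≤ 39 ^ (3 * ((t + 1) * Q) + 2) := by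
      rw [pow_succ (39 : ℝ) (3 * ((t + 1) * Q) + 1), ← hcE]
      linarith
    calc (4 * cE + 3) ^ k ≤ ((39 : ℝ) ^ (3 * ((t + 1) * Q) + 2)) ^ k :=
          pow_le_pow_left₀ (by linarith) h4 k
      _ = 39 ^ ((3 * ((t + 1) * Q) + 2) * k) := by rw [← pow_mul]
  have hm := Apx.mul hσ (opn_prodOp_siteP_le hB1) (opn_conj_siteP _ v'.1 hB') h1 h2
  refine hm.mono (le_of_eq (by ring)) (le_of_eq ?_)
  rw [← pow_add]
  congr 1
  rw [hk]
  ring

end Vale.Agent.Lib.P368
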