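import Vale.Agent.Lib.P368.DG.LevelS
import Vale.Agent.Lib.P368.Normal

/-! # Normal form of a circuit of entangling depth at most `m + 4` -/

namespace Vale.Agent.Lib.P368

open Matrix Finset

set_option linter.unusedSectionVars false

variable {ι : Type} [Fintype ι] [DecidableEq ι]

/-- induction on `k` (`RF` is defined in `Normal.lean`); `List.flatten_cons`, `rlistOp_appendG` -/
theorem RF.layers {k : ℕ} {X : Op ι} (h : RF k X) :
    ∃ Λ : List (List (Finset ι × (ι → M2))), Λ.length = k ∧ (∀ l ∈ Λ, rlistValid l) ∧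
      X = rlistOp Λ.flatten := by
  induction k generalizing X with
  | zero =>
    have hX : X = 1 := h
    exact ⟨[], rfl, by simp, by rw [hX]; simp [rlistOp]⟩
  | succ k ih =>
    obtain ⟨l, X', hl, hX', rfl⟩ := h
    obtain ⟨Λ, hlen, hval, rfl⟩ := ih hX'
    refine ⟨l :: Λ, by rw [List.length_cons, hlen], ?_, ?_⟩
    · intro l' hl'
      rcases List.mem_cons.1 hl' with rfl | hl'
      · exact hl
      · exact hval l' hl'
    · rw [List.flatten_cons, rlistOp_appendG]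

theorem RF.mids {m : ℕ} {X : Op ι} (h : RF (m + 2) X) :
    ∃ (mids : List (List (Finset ι × (ι → M2)))) (ρ₂ l₁ : List (Finset ι × (ι → M2))),
      mids.length = m ∧ (∀ ρ ∈ mids, rlistValid ρ) ∧ rlistValid ρ₂ ∧ rlistValid l₁ ∧
      X = rlistOp (mids.flatten ++ ρ₂) * rlistOp l₁ := by
  induction m generalizing X with
  | zero =>
    obtain ⟨ρ₂, X', h₂, ⟨l₁, X'', h₁, hX'', rfl⟩, rfl⟩ := h
    have : X'' = 1 := hX''
    subst this
    exact ⟨[], ρ₂, l₁, rfl, by simp, h₂, h₁, by simp⟩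
  | succ m ih =>
    obtain ⟨l, X', hl, hX', rfl⟩ := h
    obtain ⟨mids, ρ₂, l₁, hlen, hval, h₂, h₁, rfl⟩ := ih hX'
    refine ⟨l :: mids, ρ₂, l₁, by rw [List.length_cons, hlen], ?_, h₂, h₁, ?_⟩
    · intro l' hl'
      rcases List.mem_cons.1 hl' with rfl | hl'
      · exact hl
      · exact hval l' hl'
    · rw [List.flatten_cons, List.append_assoc, rlistOp_appendG l, Matrix.mul_assoc]

/-- `circuit_nf`, `RF.mono`, `RF.layers`; write the list of `m + 4` layers as
`l₄ :: ρ₃ :: (mids ++ [ρ₂, l₁])` (for instance peel two layers off `RF` first, and use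
`List.take m`, `List.drop m` on the remaining `m + 2` layers, or prove by induction on `m` that
`RF (m + 2) X` gives `mids`, `ρ₂`, `l₁`). -/
theorem circuit_nf_general (C : List (List (Gate ι))) (hC : circuitValid C) (m : ℕ)
    (hd : entanglingDepth C ≤ m + 4) :
    ∃ (u : ι → M2) (l₄ ρ₃ : List (Finset ι × (ι → M2)))
      (mids : List (List (Finset ι × (ι → M2)))) (ρ₂ l₁ : List (Finset ι × (ι → M2))),
      LocalU u ∧ rlistValid l₄ ∧ rlistValid ρ₃ ∧ mids.length = m ∧ (∀ ρ ∈ mids, rlistValid ρ) ∧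
      rlistValid ρ₂ ∧ rlistValid l₁ ∧
      circuitOp C
        = prodOp u * (rlistOp l₄ * (rlistOp ρ₃ * (rlistOp (mids.flatten ++ ρ₂) * rlistOp l₁))) := by
  obtain ⟨u, X, hu, hX, heq⟩ := circuit_nf C hC
  obtain ⟨l₄, X', h₄, ⟨ρ₃, X'', h₃, hX'', rfl⟩, rfl⟩ := hX.mono hd
  obtain ⟨mids, ρ₂, l₁, hlen, hval, h₂, h₁, rfl⟩ := RF.mids hX''
  exact ⟨u, l₄, ρ₃, mids, ρ₂, l₁, hu, h₄, h₃, hlen, hval, h₂, h₁, heq⟩

end Vale.Agent.Lib.P368
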