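import Vale.Agent.Lib.P368.DG.Stack

/-! # The errors grow at most geometrically -/

namespace Vale.Agent.Lib.P368

/-- auxiliary: the bound `u i` is between `2 / c` and `1 / 8`. -/
theorem etas_u_bounds (c β : ℝ) (hc : 0 < c) (hβ : 1 ≤ β) (m : ℕ) (h : 16 * β ^ m ≤ c) (i : ℕ)
    (hi : i ≤ m) : 2 / c ≤ 2 * β ^ i / c ∧ 2 * β ^ i / c ≤ 1 / 8 := by
  have h1 : 1 ≤ β ^ i := one_le_pow₀ hβ
  have h2 : β ^ i ≤ β ^ m := pow_le_pow_right₀ hβ hi
  constructor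
  · apply div_le_div_of_nonneg_right _ hc.le
    linarith
  · rw [div_le_iff₀ hc]
    linarith

/-- Induction on `i`.  With `β = 97 K ^ 2`, `u i = 2 β ^ i / 2 ^ L ≤ 1 / 8`, `2 / 2 ^ L ≤ u i`:
`etas (i + 1) = η + (1 + η) (2 / 2 ^ L + 84 K ^ 2 η) ≤ u + (9 / 8) (u + 84 K ^ 2 u) ≤ β u`. -/
theorem etas_le (L : ℕ) (K : ℝ) (hK : 1 ≤ K) (m : ℕ) (h : 16 * (97 * K ^ 2) ^ m ≤ 2 ^ L) :
    ∀ i ≤ m, 0 ≤ etas L K i ∧ etas L K i ≤ 2 * (97 * K ^ 2) ^ i / 2 ^ L := by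
  have hc : (0 : ℝ) < 2 ^ L := by positivity
  have hK2 : 1 ≤ K ^ 2 := one_le_pow₀ hK
  have hβ : 1 ≤ 97 * K ^ 2 := by linarith
  intro i
  induction i with
  | zero =>
    intro _
    constructor
    · simp only [etas]; positivity
    · simp only [etas, pow_zero, mul_one]; exact le_rfl
  | succ i ih =>
    intro hi
    obtain ⟨h0, h1⟩ := ih (by omega)
    obtain ⟨hu1, hu2⟩ := etas_u_bounds (2 ^ L) (97 * K ^ 2) hc hβ m h i (by omega)
    set u : ℝ := 2 * (97 * K ^ 2) ^ i / 2 ^ L with hu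
    set η : ℝ := etas L K i with hη
    set a : ℝ := 2 / 2 ^ L with ha
    have ha0 : 0 ≤ a := by rw [ha]; positivity
    have hu0 : 0 ≤ u := le_trans h0 h1
    have hstep : etas L K (i + 1) = (1 + η) * (1 + a + 84 * K ^ 2 * η) - 1 := rfl
    have hnext : 2 * (97 * K ^ 2) ^ (i + 1) / 2 ^ L = 97 * K ^ 2 * u := by
      rw [hu, pow_succ]; ring
    rw [hstep, hnext]
    have hKη : 0 ≤ 84 * K ^ 2 * η := by positivity
    constructor
    · have : 0 ≤ η * (1 + a + 84 * K ^ 2 * η) := by positivity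
      nlinarith
    · have e1 : 84 * K ^ 2 * η ≤ 84 * K ^ 2 * u :=
        mul_le_mul_of_nonneg_left h1 (by positivity)
      have e2 : (1 + η) * (1 + a + 84 * K ^ 2 * η) ≤ (1 + u) * (1 + u + 84 * K ^ 2 * u) := by
        apply mul_le_mul (by linarith) (by linarith) (by positivity) (by positivity)
      have e3 : u * (u + 84 * K ^ 2 * u) ≤ 1 / 8 * (u + 84 * K ^ 2 * u) :=
        mul_le_mul_of_nonneg_right hu2 (by positivity)
      have e4 : 0 ≤ (K ^ 2 - 1) * u := mul_nonneg (by linarith) hu0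
      nlinarith

/-- Bernoulli-type upper bound. -/
theorem ws_one_add_pow_le (a : ℝ) (ha : 0 ≤ a) (N : ℕ) (h : N * a ≤ 1 / 2) :
    (1 + a) ^ N ≤ 1 + 2 * (N * a) := by
  rcases Nat.eq_zero_or_pos N with rfl | hN
  · simp
  have hN1 : (1 : ℝ) ≤ N := by exact_mod_cast hN
  have ha1 : a ≤ 1 / 2 := by nlinarith
  have b1 : 1 + (N : ℝ) * (-a) ≤ (1 + -a) ^ N := one_add_mul_le_pow (by linarith) N
  have b2 : (1 + a) ^ N * (1 + -a) ^ N ≤ 1 := by
    rw [← mul_pow]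
    apply pow_le_one₀
    · nlinarith
    · nlinarith
  have hP : 0 ≤ (1 + a) ^ N := by positivity
  have b3 : (1 + a) ^ N * (1 + (N : ℝ) * (-a)) ≤ 1 :=
    le_trans (mul_le_mul_of_nonneg_left b1 hP) b2
  set x : ℝ := N * a with hx
  have hx0 : 0 ≤ x := by positivity
  have b4 : (1 + a) ^ N * (1 - x) ≤ (1 + 2 * x) * (1 - x) := by
    have : (1 + a) ^ N * (1 - x) ≤ 1 := by
      have e : (1 : ℝ) + (N : ℝ) * (-a) = 1 - x := by rw [hx]; ring
      rw [e] at b3; exact b3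
    nlinarith
  exact le_of_mul_le_mul_right b4 (by linarith)

/-- Induction on `i`, with `u i` as above and `N u i ≤ 1 / 8`:
`(1 + 2 η) ^ N ≤ (1 + 2 u) ^ N ≤ exp (2 N u) ≤ 1 + 4 N u`,
`(1 + 4 N u) (1 + N u) ≤ 1 + 6 N u ≤ 1 + N β u`. -/
theorem ws_le (N L : ℕ) (K : ℝ) (hK : 1 ≤ K) (m : ℕ)
    (h : 16 * ((N : ℝ) + 1) * (97 * K ^ 2) ^ m ≤ 2 ^ L) :
    ∀ i ≤ m, 1 ≤ ws N L K i ∧ ws N L K i ≤ 1 + N * (2 * (97 * K ^ 2) ^ i / 2 ^ L) := by
  have hc : (0 : ℝ) < 2 ^ L := by positivity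
  have hK2 : 1 ≤ K ^ 2 := one_le_pow₀ hK
  have hβ : 1 ≤ 97 * K ^ 2 := by linarith
  have hN0 : (0 : ℝ) ≤ N := Nat.cast_nonneg N
  have hβm : 0 ≤ (97 * K ^ 2) ^ m := by positivity
  have h' : 16 * (97 * K ^ 2) ^ m ≤ 2 ^ L := by nlinarith
  have hη := etas_le L K hK m h'
  intro i
  induction i with
  | zero =>
    intro _
    constructor
    · simp only [ws]; exact le_rfl
    · simp only [ws]
      have : 0 ≤ (N : ℝ) * (2 * (97 * K ^ 2) ^ 0 / 2 ^ L) := by positivity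
      linarith
  | succ i ih =>
    intro hi
    obtain ⟨w1, w2⟩ := ih (by omega)
    obtain ⟨h0, h1⟩ := hη i (by omega)
    have hβi : (97 * K ^ 2) ^ i ≤ (97 * K ^ 2) ^ m := pow_le_pow_right₀ hβ (by omega)
    have hβi0 : 0 ≤ (97 * K ^ 2) ^ i := by positivity
    have hnext : 2 * (97 * K ^ 2) ^ (i + 1) / 2 ^ L
        = 97 * K ^ 2 * (2 * (97 * K ^ 2) ^ i / 2 ^ L) := by
      rw [pow_succ]; ring
    have hNu : (N : ℝ) * (2 * (97 * K ^ 2) ^ i / 2 ^ L) ≤ 1 / 8 := by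
      rw [← mul_div_assoc, div_le_iff₀ hc]
      nlinarith
    set u : ℝ := 2 * (97 * K ^ 2) ^ i / 2 ^ L with hu
    set η : ℝ := etas L K i with hηd
    set w : ℝ := ws N L K i with hw
    have hu0 : 0 ≤ u := le_trans h0 h1
    have hstep : ws N L K (i + 1) = (1 + 2 * η) ^ N * w := rfl
    rw [hstep, hnext]
    have hy0 : 0 ≤ (N : ℝ) * u := by positivity
    constructor
    · have : 1 ≤ (1 + 2 * η) ^ N := one_le_pow₀ (by linarith)
      nlinarith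
    · have p1 : (1 + 2 * η) ^ N ≤ (1 + 2 * u) ^ N :=
        pow_le_pow_left₀ (by linarith) (by linarith) N
      have p2 : (1 + 2 * u) ^ N ≤ 1 + 2 * (N * (2 * u)) :=
        ws_one_add_pow_le (2 * u) (by linarith) N (by nlinarith)
      have p3 : (1 + 2 * η) ^ N * w ≤ (1 + 2 * (N * (2 * u))) * (1 + N * u) :=
        mul_le_mul (le_trans p1 p2) w2 (by linarith) (by positivity)
      have p4 : (N : ℝ) * u * (N * u) ≤ 1 / 8 * (N * u) :=
        mul_le_mul_of_nonneg_right hNu hy0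
      have p5 : 0 ≤ (K ^ 2 - 1) * (N * u) := mul_nonneg (by linarith) hy0
      nlinarith

end Vale.Agent.Lib.P368
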