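import Vale.Agent.Lib.P368.DG.Stack

/-! # The cost parameters for the thresholds `t i = x ^ (2 ^ i)` (natural numbers) -/

namespace Vale.Agent.Lib.P368

/-- the square roots of the size thresholds -/
def tx (x : ℕ) : ℕ → ℕ := fun i => x ^ (2 ^ i)

private lemma step_le (t L Q : ℕ) (ht : 1 ≤ t) (hL : 1 ≤ L) (hQ : 1 ≤ Q) :
    Q + (3 * ((t + 1) * Q) + 2) * L ≤ 9 * (t * L * Q) := by
  have h1 : Q ≤ t * L * Q := by
    have : 1 ≤ t * L := Nat.mul_pos ht hL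
    nlinarith
  have h2 : Q * L ≤ t * L * Q := by
    nlinarith [Nat.mul_le_mul_right (L * Q) ht]
  have h3 : L ≤ t * L * Q := by
    have : 1 ≤ t * Q := Nat.mul_pos ht hQ
    nlinarith
  nlinarith

/-- induction: `Q + (3 (t + 1) Q + 2) L ≤ 9 t L Q` for `t, L, Q ≥ 1`, and
`(2 ^ i - 1) + 2 ^ i = 2 ^ (i + 1) - 1` -/
theorem Qs_le (x L : ℕ) (hx : 1 ≤ x) (hL : 1 ≤ L) (i : ℕ) :
    1 ≤ Qs L (tx x) i ∧ Qs L (tx x) i ≤ L * (9 * L) ^ i * x ^ (2 ^ i - 1) := by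
  induction i with
  | zero => simp [Qs, hL]
  | succ i ih =>
    obtain ⟨h1, h2⟩ := ih
    have ht : 1 ≤ tx x i := Nat.one_le_pow _ _ hx
    refine ⟨?_, ?_⟩
    · show 1 ≤ Qs L (tx x) i + (3 * ((tx x i + 1) * Qs L (tx x) i) + 2) * L
      omega
    · show Qs L (tx x) i + (3 * ((tx x i + 1) * Qs L (tx x) i) + 2) * L ≤ _
      refine (step_le _ _ _ ht hL h1).trans ?_
      have hpos : 1 ≤ 2 ^ i := Nat.one_le_two_pow
      have he : 2 ^ (i + 1) - 1 = 2 ^ i + (2 ^ i - 1) := by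
        rw [pow_succ]; omega
      calc 9 * (tx x i * L * Qs L (tx x) i)
          ≤ 9 * (tx x i * L * (L * (9 * L) ^ i * x ^ (2 ^ i - 1))) :=
            Nat.mul_le_mul_left _ (Nat.mul_le_mul_left _ h2)
        _ = L * (9 * L) ^ (i + 1) * x ^ (2 ^ (i + 1) - 1) := by
            rw [he, pow_add, pow_succ]
            simp only [tx]
            ring

/-- induction: `(2 Q_i + 1) N ≤ 3 L (9 L) ^ i x ^ (2 ^ i - 1) x ^ (2 ^ (m + 1))
= 3 L (9 L) ^ i x ^ (2 ^ (m + 1) - 1) * x ^ (2 ^ i)`, `Nat.div_le_of_le_mul`, and `2 ≤ 9 L` -/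
theorem Es_le (x L N m : ℕ) (hx : 1 ≤ x) (hL : 1 ≤ L) (hN : N ≤ x ^ (2 ^ (m + 1))) (i : ℕ) :
    Es N L (tx x) i ≤ 3 * L * (9 * L) ^ i * x ^ (2 ^ (m + 1) - 1) := by
  induction i with
  | zero => simp [Es]
  | succ i ih =>
    obtain ⟨h1, h2⟩ := Qs_le x L hx hL i
    show ((2 * Qs L (tx x) i + 1) * N) / tx x i + Es N L (tx x) i ≤ _
    have hpos : 1 ≤ 2 ^ i := Nat.one_le_two_pow
    have hpos' : 1 ≤ 2 ^ (m + 1) := Nat.one_le_two_pow
    have he : (2 ^ i - 1) + 2 ^ (m + 1) = 2 ^ i + (2 ^ (m + 1) - 1) := by omega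
    have hfirst : ((2 * Qs L (tx x) i + 1) * N) / tx x i
        ≤ 3 * L * (9 * L) ^ i * x ^ (2 ^ (m + 1) - 1) := by
      apply Nat.div_le_of_le_mul
      calc (2 * Qs L (tx x) i + 1) * N ≤ (3 * Qs L (tx x) i) * N :=
            Nat.mul_le_mul_right _ (by omega)
        _ ≤ (3 * (L * (9 * L) ^ i * x ^ (2 ^ i - 1))) * x ^ (2 ^ (m + 1)) :=
            Nat.mul_le_mul (Nat.mul_le_mul_left _ h2) hN
        _ = 3 * L * (9 * L) ^ i * (x ^ ((2 ^ i - 1) + 2 ^ (m + 1))) := by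
            rw [pow_add]; ring
        _ = tx x i * (3 * L * (9 * L) ^ i * x ^ (2 ^ (m + 1) - 1)) := by
            rw [he, pow_add]
            simp only [tx]
            ring
    obtain ⟨Y, hY⟩ : ∃ Y, Y = 3 * L * (9 * L) ^ i * x ^ (2 ^ (m + 1) - 1) := ⟨_, rfl⟩
    rw [← hY] at hfirst ih
    have hlast : 3 * L * (9 * L) ^ (i + 1) * x ^ (2 ^ (m + 1) - 1) = 9 * L * Y := by
      rw [hY, pow_succ]; ring
    rw [hlast]
    have : 2 * Y ≤ 9 * L * Y := Nat.mul_le_mul_right _ (by omega)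
    omega

end Vale.Agent.Lib.P368
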