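import Vale.Agent.Lib.P368.DG.StackStep

/-! # The invariant for a stack of `m` layers above the second layer -/

namespace Vale.Agent.Lib.P368

open Matrix Finset
open scoped Matrix.Norms.L2Operator

set_option linter.unusedSectionVars false

/-- the cost parameter after `i` layers; `t i` is the square root of the size threshold -/
def Qs (L : ℕ) (t : ℕ → ℕ) : ℕ → ℕ
  | 0 => L
  | i + 1 => Qs L t i + (3 * ((t i + 1) * Qs L t i) + 2) * L

/-- the exponent of the cost of the large gates of the first `i` layers -/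
def Es (N L : ℕ) (t : ℕ → ℕ) : ℕ → ℕ
  | 0 => 0
  | i + 1 => ((2 * Qs L t i + 1) * N) / t i + Es N L t i

/-- the error after `i` layers -/
noncomputable def etas (L : ℕ) (K : ℝ) : ℕ → ℝ
  | 0 => 2 / 2 ^ L
  | i + 1 => (1 + etas L K i) * (1 + 2 / 2 ^ L + 84 * K ^ 2 * etas L K i) - 1

/-- the error factor of the large gates of the first `i` layers -/
noncomputable def ws (N L : ℕ) (K : ℝ) : ℕ → ℝ
  | 0 => 1
  | i + 1 => (1 + 2 * etas L K i) ^ N * ws N L K i

variable {ι : Type} [Fintype ι] [DecidableEq ι]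

theorem stack_inv (ρ₂ : List (Finset ι × (ι → M2))) (hρ₂ : rlistValid ρ₂) (L : ℕ) (K : ℝ)
    (hK : K = (((Nat.sqrt (Fintype.card ι) + 1) * L : ℕ) : ℝ)) (t : ℕ → ℕ) (ht : ∀ i, 1 ≤ t i)
    (mids : List (List (Finset ι × (ι → M2)))) (hm : ∀ ρ ∈ mids, rlistValid ρ)
    (hη : ∀ i < mids.length, 0 ≤ etas L K i ∧ etas L K i ≤ 1 / 8 ∧
      224 * K ^ 2 * etas L K i ≤ 1) :
    StackInv (mids.flatten ++ ρ₂) (etas L K mids.length) (ws (Fintype.card ι) L K mids.length)
      (Qs L t mids.length) (Es (Fintype.card ι) L t mids.length) := by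
  induction mids with
  | nil => simpa [etas, ws, Qs, Es] using stackInv_base ρ₂ hρ₂ L
  | cons ρ rest ih =>
    have ih' := ih (fun ρ' h' => hm ρ' (List.mem_cons_of_mem _ h'))
      (fun i hi => hη i (by simp only [List.length_cons]; omega))
    obtain ⟨h0, h1, h2⟩ := hη rest.length (by simp)
    have := stackInv_step _ _ _ _ _ ih' h0 h1 L K hK h2 ρ (hm ρ List.mem_cons_self)
      (t rest.length) (ht _)
    rw [List.flatten_cons, List.append_assoc, List.length_cons]
    exact this

end Vale.Agent.Lib.P368
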