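import Vale.Agent.Lib.P368.DG.MidStep
import Vale.Agent.Lib.P368.DG.LargeS
import Vale.Agent.Lib.P368.D4R.Herm

/-! # The invariant of a stack of layers, and one step -/

namespace Vale.Agent.Lib.P368

open Matrix Finset
open scoped Matrix.Norms.L2Operator

set_option linter.unusedSectionVars false

variable {ι : Type} [Fintype ι] [DecidableEq ι]

/-- The stack `σ` equals, up to conjugation by a contraction `W` that is within `w - 1` of an operator
of cost `39 ^ E`, a stack `σs` below which product projectors are well approximated. -/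
def StackInv (σ : List (Finset ι × (ι → M2))) (η w : ℝ) (Q E : ℕ) : Prop :=
  ∃ (σs : List (Finset ι × (ι → M2))) (W : Op ι), (∀ r ∈ σs, ReflValid r) ∧ LevelS σs η Q ∧
    (∀ X : Op ι, conjBy σ X = Wᴴ * conjBy σs X * W) ∧ ‖W‖ ≤ 1 ∧ Apx [] w (39 ^ E) W

theorem stackInv_base (ρ₂ : List (Finset ι × (ι → M2))) (hρ₂ : rlistValid ρ₂) (L : ℕ) :
    StackInv ρ₂ (2 / 2 ^ L) 1 L 0 := by
  refine ⟨ρ₂, 1, hρ₂.1, levelApx_two ρ₂ hρ₂ L, fun X => by simp, opn_one_le, 1, ?_, ?_⟩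
  · rw [conjBy_nil]; simp
  · simpa using (Cost.one (ι := ι))

/-- an approximation below a stack is an approximation of the conjugated operator -/
theorem Apx.to_nil {σ : List (Finset ι × (ι → M2))} {e c : ℝ} {Y : Op ι} (h : Apx σ e c Y) :
    Apx [] e c (conjBy σ Y) := by
  unfold Apx at h ⊢
  rw [conjBy_nil]
  exact h

/-- One step.  Given `σs`, `W` for `σ`; `p r = decide (t * t < r.1.card)`, `ρl = ρ.filter p`,
`ρs = ρ.filter (fun r => !p r)`.  New stack `ρs ++ σs`, new `W' = conjBy σs (rlistOp ρl) * W`.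
* validity: `List.mem_append`, `rlistValid_filter`;
* `LevelS`: `mid_step` for `ρs`;
* `rlistOp ρ = rlistOp ρs * rlistOp ρl` (`rlistOp_split`), so
  `conjBy ρ X = (rlistOp ρl)ᴴ * conjBy ρs X * rlistOp ρl`; `conjBy_append`, the hypothesis for `σ`,
  `conjBy_mul σs`, `conjBy_conjTranspose`, `Matrix.conjTranspose_mul`;
* `‖W'‖ ≤ 1`: `opn_conjBy_le`, `opn_rlistOp_le`;
* `Apx.mul` for the empty stack (`conjBy_nil`), `(large_apxS ..).to_nil`, `pow_add`. -/
theorem stackInv_step (σ : List (Finset ι × (ι → M2))) (η w : ℝ) (Q E : ℕ)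
    (h : StackInv σ η w Q E) (hη0 : 0 ≤ η) (hη : η ≤ 1 / 8) (L : ℕ) (K : ℝ)
    (hK : K = (((Nat.sqrt (Fintype.card ι) + 1) * L : ℕ) : ℝ)) (hsmall : 224 * K ^ 2 * η ≤ 1)
    (ρ : List (Finset ι × (ι → M2))) (hρ : rlistValid ρ) (t : ℕ) (ht : 1 ≤ t) :
    StackInv (ρ ++ σ) ((1 + η) * (1 + 2 / 2 ^ L + 84 * K ^ 2 * η) - 1)
      ((1 + 2 * η) ^ Fintype.card ι * w) (Q + (3 * ((t + 1) * Q) + 2) * L)
      (((2 * Q + 1) * Fintype.card ι) / t + E) := by
  obtain ⟨σs, W, hv, hlev, hconj, hW, hApx⟩ := h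
  obtain ⟨p, hp⟩ : ∃ p : Finset ι × (ι → M2) → Bool, p = fun r => decide (t * t < r.1.card) :=
    ⟨_, rfl⟩
  obtain ⟨ρl, hl⟩ : ∃ ρl, ρl = ρ.filter p := ⟨_, rfl⟩
  obtain ⟨ρs, hs⟩ : ∃ ρs, ρs = ρ.filter (fun r => !p r) := ⟨_, rfl⟩
  have hρl : rlistValid ρl := by rw [hl]; exact rlistValid_filter hρ p
  have hρs : rlistValid ρs := by rw [hs]; exact rlistValid_filter hρ _
  have hbig : ∀ r ∈ ρl, t * t < r.1.card := by
    intro r hr
    rw [hl] at hr
    have h2 := (List.mem_filter.1 hr).2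
    rw [hp] at h2
    simpa using h2
  have hsz : ∀ r ∈ ρs, r.1.card ≤ t * t := by
    intro r hr
    rw [hs] at hr
    have h2 := (List.mem_filter.1 hr).2
    rw [hp] at h2
    simpa using h2
  have hU : ‖rlistOp ρl‖ ≤ 1 := opn_rlistOp_le ρl hρl.1
  have hV : ‖conjBy σs (rlistOp ρl)‖ ≤ 1 := (opn_conjBy_le σs hv _).trans hU
  refine ⟨ρs ++ σs, conjBy σs (rlistOp ρl) * W, ?_, ?_, ?_, ?_, ?_⟩
  · intro r hr
    rcases List.mem_append.1 hr with h | h
    · exact hρs.1 r h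
    · exact hv r h
  · exact mid_step σs hv η Q hlev hη0 hη L K hK hsmall ρs hρs t hsz
  · intro X
    have e1 : conjBy ρ X = (rlistOp ρl)ᴴ * conjBy ρs X * rlistOp ρl := by
      unfold conjBy
      rw [rlistOp_split ρ hρ p, ← hl, ← hs]
      simp only [Matrix.conjTranspose_mul, Matrix.mul_assoc]
    rw [conjBy_append, hconj, e1, conjBy_mul σs hv, conjBy_mul σs hv, conjBy_append,
      Matrix.conjTranspose_mul, conjBy_conjTranspose]
    simp only [Matrix.mul_assoc]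
  · calc ‖conjBy σs (rlistOp ρl) * W‖ ≤ ‖conjBy σs (rlistOp ρl)‖ * ‖W‖ := norm_mul_le _ _
      _ ≤ 1 * 1 := by gcongr
      _ = 1 := by ring
  · have h1 := (large_apxS σs hv η Q hlev hη0 ρl hρl t ht hbig).to_nil
    have h2 := Apx.mul (ρ₂ := []) (by simp) hV hW h1 hApx
    rw [pow_add]
    exact h2

end Vale.Agent.Lib.P368
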