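import Vale.Agent.Lib.P368.DG.Stack
import Vale.Agent.Lib.P368.DG.NFG
import Vale.Agent.Lib.P368.D4R.Top4R

/-! # The observable below a general stack -/

namespace Vale.Agent.Lib.P368

open Matrix Finset
open scoped Matrix.Norms.L2Operator

set_option linter.unusedSectionVars false

section general

variable {ι : Type} [Fintype ι] [DecidableEq ι]

/-- `Cost.adj`, `Matrix.l2_opNorm_conjTranspose`, `conjBy_nil` -/
theorem Apx.adj_nil {e c : ℝ} {W : Op ι} (h : Apx [] e c W) : Apx [] e c Wᴴ := by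
  obtain ⟨Z, hZ, hc⟩ := h
  refine ⟨Zᴴ, ?_, hc.adj⟩
  rw [conjBy_nil] at hZ ⊢
  rw [← Matrix.conjTranspose_sub, Matrix.l2_opNorm_conjTranspose]
  exact hZ

/-- From the invariant: `conjBy σ Y = Wᴴ * conjBy σs Y * W` with
`Y = conjBy ρ₃ (conjBy l₄ (prodOp (atSite o π)))`, `‖Y‖ ≤ 1`.  `level_step` for `σs` gives the
hypothesis of `top_apx` (`D4R/Top4R.lean`) with `e`, `c`; then `.to_nil`, `Apx.adj_nil` and `Apx.mul`
twice for the empty stack. -/
theorem topG_apx (σ ρ₃ l₄ : List (Finset ι × (ι → M2))) (η w : ℝ) (Q E : ℕ)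
    (h : StackInv σ η w Q E) (hη0 : 0 ≤ η) (hη : η ≤ 1 / 8) (L : ℕ) (K : ℝ)
    (hK : K = (((Nat.sqrt (Fintype.card ι) + 1) * L : ℕ) : ℝ)) (hsmall : 224 * K ^ 2 * η ≤ 1)
    (hρ₃ : rlistValid ρ₃) (h₄ : rlistValid l₄) (o : ι) (π : M2) (hπ : Pr π) (e c : ℝ)
    (he : e = (1 + η) * (1 + 2 / 2 ^ L + 84 * K ^ 2 * η) ^ (Nat.log 2 (Fintype.card ι) + 2))
    (hc : c = 39 ^ totExp (fun s => (Nat.sqrt s + 1) * Q) (Fintype.card ι) L) :
    Apx [] (w * ((2 * e - 1) * e * (2 * e - 1)) * w)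
      (39 ^ E * ((1 + 2 * c) * c * (1 + 2 * c)) * 39 ^ E)
      (conjBy σ (conjBy ρ₃ (conjBy l₄ (prodOp (atSite o π))))) := by
  obtain ⟨σs, W, hσs, hlev, hconj, hW, aW⟩ := h
  have H : ∀ B : ι → M2, SiteP B → Apx σs e c (conjBy ρ₃ (prodOp B)) := by
    intro B hB
    have := level_step σs hσs η _ (sqrtQ_mono Q) hlev hη0 hη L K hK hsmall ρ₃ hρ₃ B hB
    rw [he, hc]
    exact this
  have hc1 : 1 ≤ c := by rw [hc]; exact one_le_pow₀ (by norm_num)
  have aY := (top_apx σs ρ₃ l₄ hσs hρ₃ h₄ o π hπ e c hc1 H).to_nil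
  have nY : ‖conjBy σs (conjBy ρ₃ (conjBy l₄ (prodOp (atSite o π))))‖ ≤ 1 :=
    (opn_conjBy_le σs hσs _).trans ((opn_conjBy_le ρ₃ hρ₃.1 _).trans
      ((opn_conjBy_le l₄ h₄.1 _).trans (opn_prodOp_siteP_le (siteP_atSite o π hπ))))
  have nWh : ‖Wᴴ‖ ≤ 1 := by rw [Matrix.l2_opNorm_conjTranspose]; exact hW
  have hnil : ∀ r ∈ ([] : List (Finset ι × (ι → M2))), ReflValid r := by
    intro r hr
    exact absurd hr List.not_mem_nil
  have nWY : ‖Wᴴ * conjBy σs (conjBy ρ₃ (conjBy l₄ (prodOp (atSite o π))))‖ ≤ 1 :=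
    (norm_mul_le _ _).trans (mul_le_one₀ nWh (norm_nonneg _) nY)
  rw [hconj]
  exact Apx.mul hnil nWY hW (Apx.mul hnil nWh nY aW.adj_nil aY) aW

theorem heisG_bound (inp : ι → Bool) (o : ι) (b : Bool) (u : ι → M2)
    (l₄ ρ₃ σ l₁ : List (Finset ι × (ι → M2))) (hu : LocalU u) (h₁ : rlistValid l₁) (e c : ℝ)
    (H : ∀ π : M2, Pr π → Apx [] e c (conjBy σ (conjBy ρ₃ (conjBy l₄ (prodOp (atSite o π)))))) :
    ‖Phi inp ((prodOp u * (rlistOp l₄ * (rlistOp ρ₃ * (rlistOp σ * rlistOp l₁))))ᴴ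
      * prodOp (atSite o (ketbra (eb b) (eb b)))
      * (prodOp u * (rlistOp l₄ * (rlistOp ρ₃ * (rlistOp σ * rlistOp l₁)))))‖
      ≤ (e - 1) + c * gam ^ numInp inp := by
  have e1 : (prodOp u)ᴴ * prodOp (atSite o (ketbra (eb b) (eb b))) * prodOp u
      = prodOp (atSite o ((u o)ᴴ * ketbra (eb b) (eb b) * u o)) := by
    rw [prodOp_conjTranspose, prodOp_mul, prodOp_mul]
    congr 1
    funext j
    by_cases hj : j = o
    · subst hj
      rw [atSite_self, atSite_self]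
    · rw [atSite_ne _ _ hj, atSite_ne _ _ hj, Matrix.mul_one, hu.star_mul j]
  have e2 : (prodOp u * (rlistOp l₄ * (rlistOp ρ₃ * (rlistOp σ * rlistOp l₁))))ᴴ
      * prodOp (atSite o (ketbra (eb b) (eb b)))
      * (prodOp u * (rlistOp l₄ * (rlistOp ρ₃ * (rlistOp σ * rlistOp l₁))))
      = conjBy l₁ (conjBy [] (conjBy σ (conjBy ρ₃ (conjBy l₄
        (prodOp (atSite o ((u o)ᴴ * ketbra (eb b) (eb b) * u o))))))) := by
    rw [← e1, conjBy_nil]
    simp only [conjBy, Matrix.conjTranspose_mul, Matrix.mul_assoc]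
  rw [e2]
  exact (H _ ((pr_eb b).conj (hu o))).bound inp l₁ h₁

end general

/-- the bound for circuits of entangling depth at most `m + 4`, with free parameters: the accuracy
`L` and the square roots `t i` of the size thresholds in the `m` middle layers -/
theorem depth_general_param {n a : ℕ} (C : List (List (Gate (Fin n ⊕ Fin a))))
    (hC : circuitValid C) (m : ℕ) (hd : entanglingDepth C ≤ m + 4) (o : Fin n ⊕ Fin a) (L : ℕ)
    (t : ℕ → ℕ) (ht : ∀ i, 1 ≤ t i)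
    (K : ℝ) (hK : K = (((Nat.sqrt (n + a) + 1) * L : ℕ) : ℝ))
    (hη : ∀ i ≤ m, 0 ≤ etas L K i ∧ etas L K i ≤ 1 / 8 ∧ 224 * K ^ 2 * etas L K i ≤ 1)
    (e c w : ℝ)
    (he : e = (1 + etas L K m) * (1 + 2 / 2 ^ L + 84 * K ^ 2 * etas L K m)
      ^ (Nat.log 2 (n + a) + 2))
    (hc : c = 39 ^ totExp (fun s => (Nat.sqrt s + 1) * Qs L t m) (n + a) L)
    (hw : w = ws (n + a) L K m) :
    |parityCorrelation C o|
      ≤ 2 * ((w * ((2 * e - 1) * e * (2 * e - 1)) * w - 1)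
        + 39 ^ Es (n + a) L t m * ((1 + 2 * c) * c * (1 + 2 * c)) * 39 ^ Es (n + a) L t m
          * gam ^ n) := by
  obtain ⟨u, l₄, ρ₃, mids, ρ₂, l₁, hu, h₄, h₃, hlen, hmids, h₂, h₁, heq⟩ :=
    circuit_nf_general C hC m hd
  have hcard : Fintype.card (Fin n ⊕ Fin a) = n + a := by simp
  have hK' : K = (((Nat.sqrt (Fintype.card (Fin n ⊕ Fin a)) + 1) * L : ℕ) : ℝ) := by
    rw [hcard]; exact hK
  have hinv := stack_inv ρ₂ h₂ L K hK' t ht mids hmids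
    (fun i hi => hη i (by omega))
  rw [hlen, hcard] at hinv
  obtain ⟨h0, h8, hs⟩ := hη m le_rfl
  have H : ∀ π : M2, Pr π → Apx [] (w * ((2 * e - 1) * e * (2 * e - 1)) * w)
      (39 ^ Es (n + a) L t m * ((1 + 2 * c) * c * (1 + 2 * c)) * 39 ^ Es (n + a) L t m)
      (conjBy (mids.flatten ++ ρ₂) (conjBy ρ₃ (conjBy l₄ (prodOp (atSite o π))))) := by
    intro π hπ
    rw [hw]
    exact topG_apx _ ρ₃ l₄ _ _ _ _ hinv h0 h8 L K hK' hs h₃ h₄ o π hπ e c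
      (by rw [hcard]; exact he) (by rw [hcard]; exact hc)
  have h := corr_eq C o
  rw [heq] at h
  have b0 := heisG_bound (fun j : Fin n ⊕ Fin a => Sum.isLeft j) o false u l₄ ρ₃ _ l₁ hu h₁ _ _ H
  have b1 := heisG_bound (fun j : Fin n ⊕ Fin a => Sum.isLeft j) o true u l₄ ρ₃ _ l₁ hu h₁ _ _ H
  rw [numInp_sum] at b0 b1
  have : |parityCorrelation C o| = ‖((parityCorrelation C o : ℝ) : ℂ)‖ := by
    rw [Complex.norm_real, Real.norm_eq_abs]
  rw [this, h]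
  refine (norm_sub_le _ _).trans ?_
  linarith

end Vale.Agent.Lib.P368
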