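import Vale.Agent.Lib.P368.DG.LevelS

/-! # Only the gates that touch the support matter -/

namespace Vale.Agent.Lib.P368

open Matrix Finset

set_option linter.unusedSectionVars false

variable {ι : Type} [Fintype ι] [DecidableEq ι]

/-- the gates of the layer that contain a site of `S` -/
def touching (ρ : List (Finset ι × (ι → M2))) (S : Finset ι) : List (Finset ι × (ι → M2)) :=
  ρ.filter (fun r => decide (r.1 ∩ S).Nonempty)

/-- reflections with disjoint supports commute -/
theorem reflOp_commute_of_disjoint {r s : Finset ι × (ι → M2)} (hr : ReflValid r)
    (hs : ReflValid s) (hd : Disjoint r.1 s.1) : Commute (reflOp r) (reflOp s) := by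
  have hc : Commute (prodOp r.2) (prodOp s.2) := by
    apply prodOp_commute
    intro j
    by_cases hj : j ∈ r.1
    · rw [hs.2 j (Finset.disjoint_left.1 hd hj)]; exact Commute.one_right _
    · rw [hr.2 j hj]; exact Commute.one_left _
  unfold reflOp
  exact ((Commute.one_left _).sub_left ((Commute.one_right _).smul_left _)).sub_right
    (((Commute.one_left _).sub_left (hc.smul_left _)).smul_right _)

/-- a reflection that commutes with all gates of a list can be pulled out of `conjBy` -/
theorem conjBy_pull {r : Finset ι × (ι → M2)} (hr : ReflValid r)
    (l : List (Finset ι × (ι → M2))) (hl : ∀ s ∈ l, ReflValid s)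
    (hd : ∀ s ∈ l, Disjoint r.1 s.1) (M : Op ι) :
    conjBy l (reflOp r * M * reflOp r) = reflOp r * conjBy l M * reflOp r := by
  induction l generalizing M with
  | nil => simp [conjBy_nil]
  | cons s l ih =>
    have hs : ReflValid s := hl s (List.mem_cons_self)
    have hc : Commute (reflOp r) (reflOp s) :=
      reflOp_commute_of_disjoint hr hs (hd s (List.mem_cons_self))
    rw [conjBy_cons hs, conjBy_cons hs]
    have e : reflOp s * (reflOp r * M * reflOp r) * reflOp s
        = reflOp r * (reflOp s * M * reflOp s) * reflOp r := by
      calc reflOp s * (reflOp r * M * reflOp r) * reflOp s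
          = (reflOp s * reflOp r) * M * (reflOp r * reflOp s) := by
            simp only [Matrix.mul_assoc]
        _ = (reflOp r * reflOp s) * M * (reflOp s * reflOp r) := by rw [hc.eq]
        _ = reflOp r * (reflOp s * M * reflOp s) * reflOp r := by
            simp only [Matrix.mul_assoc]
    rw [e]
    exact ih (fun t ht => hl t (List.mem_cons_of_mem _ ht))
      (fun t ht => hd t (List.mem_cons_of_mem _ ht)) _

/-- induction on the list; `conjBy_cons`, `refl_commute` (`Top.lean`) for a gate that does not touch
`S`; a gate that touches `S` commutes with all the later gates (disjoint supports) -/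
theorem conjBy_touching (ρ : List (Finset ι × (ι → M2))) (hρ : rlistValid ρ)
    (B : ι → M2) (S : Finset ι) (hS : ∀ j, j ∉ S → B j = 1) :
    conjBy ρ (prodOp B) = conjBy (touching ρ S) (prodOp B) := by
  induction ρ with
  | nil => rfl
  | cons r l ih =>
    have hr : ReflValid r := hρ.1 r (List.mem_cons_self)
    have hl : rlistValid l :=
      ⟨fun s hs => hρ.1 s (List.mem_cons_of_mem _ hs), (List.pairwise_cons.1 hρ.2).2⟩
    have hd : ∀ s ∈ l, Disjoint r.1 s.1 := (List.pairwise_cons.1 hρ.2).1
    have ih' := ih hl
    by_cases ht : (r.1 ∩ S).Nonempty
    · have e : touching (r :: l) S = r :: touching l S := by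
        unfold touching
        rw [List.filter_cons_of_pos (by simpa using ht)]
      rw [e, conjBy_cons hr, conjBy_cons hr, conjBy_pull hr l hl.1 hd, ih',
        conjBy_pull hr (touching l S)
          (fun s hs => hl.1 s (List.mem_of_mem_filter hs))
          (fun s hs => hd s (List.mem_of_mem_filter hs))]
    · have e : touching (r :: l) S = touching l S := by
        unfold touching
        rw [List.filter_cons_of_neg (by simpa using ht)]
      have hB : ∀ j ∈ r.1, B j = 1 := by
        intro j hj
        apply hS
        intro hjS
        exact ht ⟨j, Finset.mem_inter.2 ⟨hj, hjS⟩⟩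
      rw [e, conjBy_cons hr, refl_commute hr hB, ih']

/-- disjoint gates touching `S` contain distinct sites of `S` (induction on the list, removing from
`S` the sites of the first gate; or an injection into `S`) -/
theorem touching_length (ρ : List (Finset ι × (ι → M2)))
    (hρ : ρ.Pairwise (fun r s => Disjoint r.1 s.1)) (S : Finset ι) :
    (touching ρ S).length ≤ S.card := by
  induction ρ generalizing S with
  | nil => simp [touching]
  | cons r l ih =>
    have hd : ∀ s ∈ l, Disjoint r.1 s.1 := (List.pairwise_cons.1 hρ).1
    have hl := (List.pairwise_cons.1 hρ).2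
    by_cases ht : (r.1 ∩ S).Nonempty
    · have e : touching (r :: l) S = r :: touching l S := by
        unfold touching
        rw [List.filter_cons_of_pos (by simpa using ht)]
      have e2 : touching l S = touching l (S \ r.1) := by
        unfold touching
        apply List.filter_congr
        intro s hs
        have hds := hd s hs
        have : s.1 ∩ S = s.1 ∩ (S \ r.1) := by
          ext j
          simp only [Finset.mem_inter, Finset.mem_sdiff]
          constructor
          · rintro ⟨h1, h2⟩
            exact ⟨h1, h2, fun h3 => Finset.disjoint_left.1 hds h3 h1⟩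
          · rintro ⟨h1, h2, -⟩
            exact ⟨h1, h2⟩
        rw [this]
      have h1 := ih hl (S \ r.1)
      have h2 : (S \ r.1).card < S.card := by
        apply Finset.card_lt_card
        obtain ⟨j, hj⟩ := ht
        rw [Finset.mem_inter] at hj
        refine ⟨Finset.sdiff_subset, fun h => ?_⟩
        exact (Finset.mem_sdiff.1 (h hj.2)).2 hj.1
      rw [e, List.length_cons, e2]
      omega
    · have e : touching (r :: l) S = touching l S := by
        unfold touching
        rw [List.filter_cons_of_neg (by simpa using ht)]
      rw [e]
      exact ih hl S

end Vale.Agent.Lib.P368
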